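import Vale.Agent.P028.MathlibUsed

/-!
# The Carleson embedding theorem for nested finite partitions
-/

namespace Vale.P028.Carl

open Finset

variable {ι κ : Type*} [DecidableEq κ]

/-- the mass of the class `c` of the labelling `cl` -/
def mu (Q : Finset ι) (m : ι → ℝ) (cl : ι → κ) (c : κ) : ℝ :=
  ∑ q ∈ Q.filter (fun q => cl q = c), m q

/-- the average of `g` over the class `c` -/
noncomputable def av (Q : Finset ι) (m : ι → ℝ) (cl : ι → κ) (g : ι → ℝ) (c : κ) : ℝ :=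
  (∑ q ∈ Q.filter (fun q => cl q = c), m q * g q) / mu Q m cl c

theorem mu_nonneg {Q : Finset ι} {m : ι → ℝ} (hm : ∀ q ∈ Q, 0 ≤ m q) (cl : ι → κ) (c : κ) :
    0 ≤ mu Q m cl c := sum_nonneg fun q hq => hm q (mem_filter.1 hq).1

/-- if the mass of a class is zero all its sums are zero -/
theorem mul_av {Q : Finset ι} {m : ι → ℝ} (hm : ∀ q ∈ Q, 0 ≤ m q) (cl : ι → κ) (g : ι → ℝ)
    (c : κ) : mu Q m cl c * av Q m cl g c = ∑ q ∈ Q.filter (fun q => cl q = c), m q * g q := by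
  unfold av
  rcases (mu_nonneg hm cl c).eq_or_lt with h | h
  · rw [← h, zero_mul]
    have h0 : ∀ q ∈ Q.filter (fun q => cl q = c), m q = 0 :=
      (sum_eq_zero_iff_of_nonneg fun q hq => hm q (mem_filter.1 hq).1).1 h.symm
    symm
    refine sum_eq_zero fun q hq => ?_
    rw [h0 q hq, zero_mul]
  · field_simp

theorem av_nonneg {Q : Finset ι} {m g : ι → ℝ} (hm : ∀ q ∈ Q, 0 ≤ m q) (hg : ∀ q ∈ Q, 0 ≤ g q)
    (cl : ι → κ) (c : κ) : 0 ≤ av Q m cl g c :=
  div_nonneg (sum_nonneg fun q hq => mul_nonneg (hm q (mem_filter.1 hq).1)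
    (hg q (mem_filter.1 hq).1)) (mu_nonneg hm cl c)

/-- Cauchy-Schwarz with weights `1 + b` -/
theorem cs_step {Q : Finset ι} {w f b : ι → ℝ} (hw : ∀ q ∈ Q, 0 ≤ w q) (hb : ∀ q ∈ Q, 0 ≤ b q) :
    (∑ q ∈ Q, w q * f q) ^ 2 ≤ (∑ q ∈ Q, w q * (f q ^ 2 / (1 + b q))) *
      ∑ q ∈ Q, w q * (1 + b q) := by
  have h : ∀ q ∈ Q, w q * f q = (Real.sqrt (w q) * (f q / Real.sqrt (1 + b q))) *
      (Real.sqrt (w q) * Real.sqrt (1 + b q)) := by
    intro q hq
    have h1 : 0 < 1 + b q := by linarith [hb q hq]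
    have h2 : 0 < Real.sqrt (1 + b q) := Real.sqrt_pos.2 h1
    have h3 := Real.mul_self_sqrt (hw q hq)
    calc w q * f q = (Real.sqrt (w q) * Real.sqrt (w q)) * f q := by rw [h3]
      _ = _ := by field_simp
  rw [sum_congr rfl h]
  refine (sum_mul_sq_le_sq_mul_sq Q _ _).trans (le_of_eq ?_)
  congr 1
  · refine sum_congr rfl fun q hq => ?_
    have h1 : 0 < 1 + b q := by linarith [hb q hq]
    rw [mul_pow, div_pow, Real.sq_sqrt (hw q hq), Real.sq_sqrt h1.le]
  · refine sum_congr rfl fun q hq => ?_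
    have h1 : 0 < 1 + b q := by linarith [hb q hq]
    rw [mul_pow, Real.sq_sqrt (hw q hq), Real.sq_sqrt h1.le]

/-- sums over the classes -/
theorem sum_classes (Q : Finset ι) (cl : ι → κ) (g : ι → ℝ) :
    ∑ q ∈ Q, g q = ∑ c ∈ Q.image cl, ∑ q ∈ Q.filter (fun q => cl q = c), g q :=
  (sum_fiberwise_of_maps_to (fun _ hq => mem_image_of_mem _ hq) g).symm

/-- sums inside a class of a coarser labelling -/
theorem sum_sub {Q : Finset ι} {cl cl' : ι → κ} (hcl : ∀ q ∈ Q, ∀ r ∈ Q, cl q = cl r → cl' q = cl' r)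
    (c : κ) (g : ι → ℝ) :
    ∑ q ∈ Q.filter (fun q => cl' q = c), g q =
      ∑ d ∈ (Q.filter (fun q => cl' q = c)).image cl, ∑ q ∈ Q.filter (fun q => cl q = d), g q := by
  rw [sum_classes (Q.filter (fun q => cl' q = c)) cl g]
  refine sum_congr rfl fun d hd => ?_
  obtain ⟨q₀, hq₀, rfl⟩ := mem_image.1 hd
  obtain ⟨h1, h2⟩ := mem_filter.1 hq₀
  refine sum_congr ?_ fun _ _ => rfl
  ext q
  simp only [mem_filter]
  constructor
  · rintro ⟨⟨h3, h4⟩, h5⟩
    exact ⟨h3, h5⟩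
  · rintro ⟨h3, h4⟩
    exact ⟨⟨h3, (hcl q h3 q₀ h1 h4).trans h2⟩, h4⟩

/-- the energy of a class up to level `k`: `∑_{i ≤ k} ∑_{q in the class} m α_i (A_i s)²` -/
noncomputable def en (Q : Finset ι) (m s : ι → ℝ) (cl : ℕ → ι → κ) (α : ℕ → ι → ℝ) (k : ℕ)
    (c : κ) : ℝ :=
  ∑ q ∈ Q.filter (fun q => cl k q = c), m q * ∑ i ∈ range (k + 1),
    α i q * av Q m (cl i) s (cl i q) ^ 2

/-- the mass of the coefficients -/
noncomputable def aa (Q : Finset ι) (m : ι → ℝ) (cl : ℕ → ι → κ) (α : ℕ → ι → ℝ) (k : ℕ)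
    (c : κ) : ℝ :=
  ∑ q ∈ Q.filter (fun q => cl k q = c), m q * ∑ i ∈ range (k + 1), α i q

theorem num_step {K μ S Φ f a b : ℝ} (hK : 0 < K) (hμ : 0 < μ) (ha : 0 ≤ a) (hb : 0 ≤ b)
    (hb1 : b + a / (K * μ) ≤ 1) (hΦ : μ * (f ^ 2 / (1 + b)) ≤ Φ) :
    4 * K * (S - Φ) + f ^ 2 * a ≤ 4 * K * (S - μ * (f ^ 2 / (1 + (b + a / (K * μ))))) := by
  set a' := a / (K * μ) with ha'
  have ha0 : 0 ≤ a' := by positivity
  have e : a = K * μ * a' := by
    rw [ha']
    field_simp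
  have h1 : 0 < 1 + b := by linarith
  have h2 : 0 < 1 + (b + a') := by linarith
  have h3 : f ^ 2 / (1 + b) - f ^ 2 / (1 + (b + a')) = f ^ 2 * a' / ((1 + b) * (1 + (b + a'))) := by
    field_simp
    ring
  have h4 : f ^ 2 * a' / 4 ≤ f ^ 2 * a' / ((1 + b) * (1 + (b + a'))) := by
    apply div_le_div_of_nonneg_left (by positivity) (by positivity)
    nlinarith
  have h5 : μ * (f ^ 2 * a' / 4) ≤ μ * (f ^ 2 / (1 + b)) - μ * (f ^ 2 / (1 + (b + a'))) := by
    rw [← mul_sub, h3]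
    exact mul_le_mul_of_nonneg_left h4 hμ.le
  have h6 : 4 * K * (μ * (f ^ 2 * a' / 4)) = f ^ 2 * a := by
    rw [e]
    ring
  have h7 := mul_le_mul_of_nonneg_left (h5.trans (sub_le_sub_right hΦ _)) (by positivity : 0 ≤ 4 * K)
  rw [h6] at h7
  linarith

theorem en_zero {Q : Finset ι} {m s : ι → ℝ} {cl : ℕ → ι → κ} {α : ℕ → ι → ℝ} (c : κ) :
    en Q m s cl α 0 c = av Q m (cl 0) s c ^ 2 * aa Q m cl α 0 c := by
  unfold en aa
  rw [mul_sum]
  refine sum_congr rfl fun q hq => ?_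
  rw [sum_range_one, sum_range_one, (mem_filter.1 hq).2]
  ring

theorem aa_nonneg {Q : Finset ι} {m : ι → ℝ} {cl : ℕ → ι → κ} {α : ℕ → ι → ℝ}
    (hm : ∀ q ∈ Q, 0 ≤ m q) {k : ℕ} (hα : ∀ i ≤ k, ∀ q ∈ Q, 0 ≤ α i q) (c : κ) :
    0 ≤ aa Q m cl α k c :=
  sum_nonneg fun q hq => mul_nonneg (hm q (mem_filter.1 hq).1) (sum_nonneg fun i hi =>
    hα i (by have := mem_range.1 hi; omega) q (mem_filter.1 hq).1)

theorem zero_of_mu {Q : Finset ι} {m : ι → ℝ} (hm : ∀ q ∈ Q, 0 ≤ m q) {cl : ι → κ} {c : κ}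
    (h : mu Q m cl c = 0) (g : ι → ℝ) : ∑ q ∈ Q.filter (fun q => cl q = c), m q * g q = 0 := by
  have h0 : ∀ q ∈ Q.filter (fun q => cl q = c), m q = 0 :=
    (sum_eq_zero_iff_of_nonneg fun q hq => hm q (mem_filter.1 hq).1).1 h
  refine sum_eq_zero fun q hq => ?_
  rw [h0 q hq, zero_mul]

theorem bellman {Q : Finset ι} {m s : ι → ℝ} {cl : ℕ → ι → κ} {α : ℕ → ι → ℝ} {K : ℝ}
    (hm : ∀ q ∈ Q, 0 ≤ m q) (hK : 0 < K) {n : ℕ}
    (hcl : ∀ k < n, ∀ q ∈ Q, ∀ r ∈ Q, cl k q = cl k r → cl (k + 1) q = cl (k + 1) r)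
    (hα : ∀ k ≤ n, ∀ q ∈ Q, 0 ≤ α k q)
    (hA : ∀ k ≤ n, ∀ q ∈ Q, aa Q m cl α k (cl k q) ≤ K * mu Q m (cl k) (cl k q)) :
    ∀ k ≤ n, ∀ q₀ ∈ Q, en Q m s cl α k (cl k q₀) ≤
      4 * K * (∑ q ∈ Q.filter (fun q => cl k q = cl k q₀), m q * s q ^ 2 -
        mu Q m (cl k) (cl k q₀) * (av Q m (cl k) s (cl k q₀) ^ 2 /
          (1 + aa Q m cl α k (cl k q₀) / (K * mu Q m (cl k) (cl k q₀))))) := by
  intro k
  induction k with
  | zero =>
    intro hk q₀ hq₀
    rw [en_zero]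
    rcases (mu_nonneg hm (cl 0) (cl 0 q₀)).eq_or_lt with h | h
    · have h1 : aa Q m cl α 0 (cl 0 q₀) = 0 := zero_of_mu hm h.symm _
      rw [h1, ← h, zero_of_mu hm h.symm]
      simp
    · have ha := aa_nonneg (cl := cl) hm (k := 0) (fun i hi => hα i (hi.trans hk)) (cl 0 q₀)
      have hA0 := hA 0 hk q₀ hq₀
      have hcs : mu Q m (cl 0) (cl 0 q₀) * av Q m (cl 0) s (cl 0 q₀) ^ 2 ≤
          ∑ q ∈ Q.filter (fun q => cl 0 q = cl 0 q₀), m q * s q ^ 2 := by
        have h2 := cs_step (Q := Q.filter (fun q => cl 0 q = cl 0 q₀)) (w := m) (f := s)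
          (b := fun _ => 0) (fun q hq => hm q (mem_filter.1 hq).1) (fun _ _ => le_rfl)
        rw [← mul_av hm] at h2
        simp only [add_zero, div_one, mul_one] at h2
        change _ ≤ _ * mu Q m (cl 0) (cl 0 q₀) at h2
        rw [mul_pow] at h2
        have h3 : (mu Q m (cl 0) (cl 0 q₀) * av Q m (cl 0) s (cl 0 q₀) ^ 2) *
            mu Q m (cl 0) (cl 0 q₀) ≤
            (∑ q ∈ Q.filter (fun q => cl 0 q = cl 0 q₀), m q * s q ^ 2) *
              mu Q m (cl 0) (cl 0 q₀) := by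
          refine le_trans (le_of_eq ?_) h2
          ring
        exact le_of_mul_le_mul_right h3 h
      have h4 := num_step (S := ∑ q ∈ Q.filter (fun q => cl 0 q = cl 0 q₀), m q * s q ^ 2)
        (Φ := ∑ q ∈ Q.filter (fun q => cl 0 q = cl 0 q₀), m q * s q ^ 2)
        (f := av Q m (cl 0) s (cl 0 q₀)) (a := aa Q m cl α 0 (cl 0 q₀)) (b := 0) hK h ha le_rfl
        (by rw [zero_add, div_le_one (by positivity)]; exact hA0) (by simpa using hcs)
      rw [zero_add] at h4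
      linarith
  | succ k ih =>
    intro hk q₀ hq₀
    have ih' := ih (by omega)
    set c := cl (k + 1) q₀ with hc
    set R := Q.filter (fun q => cl (k + 1) q = c) with hR
    have hRQ : ∀ q ∈ R, q ∈ Q := fun q hq => (mem_filter.1 hq).1
    have hsub := sum_sub (Q := Q) (cl := cl k) (cl' := cl (k + 1)) (hcl k (by omega)) c
    rw [← hR] at hsub
    rcases (mu_nonneg hm (cl (k + 1)) c).eq_or_lt with h | h
    · have h1 : aa Q m cl α (k + 1) c = 0 := zero_of_mu hm h.symm _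
      have h2 : en Q m s cl α (k + 1) c = 0 := zero_of_mu hm h.symm _
      rw [h1, h2, ← h, zero_of_mu hm h.symm]
      simp
    · set f := av Q m (cl (k + 1)) s c with hf
      set a := ∑ q ∈ R, m q * α (k + 1) q with ha
      have ha0 : 0 ≤ a := sum_nonneg fun q hq => mul_nonneg (hm q (hRQ q hq))
        (hα (k + 1) hk q (hRQ q hq))
      have hen : en Q m s cl α (k + 1) c =
          ∑ d ∈ R.image (cl k), en Q m s cl α k d + f ^ 2 * a := by
        unfold en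
        rw [← hsub, ha, mul_sum, ← hR, ← sum_add_distrib]
        refine sum_congr rfl fun q hq => ?_
        rw [sum_range_succ, mul_add, (mem_filter.1 hq).2]
        ring
      have haa : aa Q m cl α (k + 1) c = ∑ d ∈ R.image (cl k), aa Q m cl α k d + a := by
        unfold aa
        rw [← hsub, ha, ← hR, ← sum_add_distrib]
        refine sum_congr rfl fun q hq => ?_
        rw [sum_range_succ, mul_add]
      have hμ : mu Q m (cl (k + 1)) c = ∑ d ∈ R.image (cl k), mu Q m (cl k) d := by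
        unfold mu
        rw [← hsub]
      set b := (∑ d ∈ R.image (cl k), aa Q m cl α k d) / (K * mu Q m (cl (k + 1)) c) with hb
      have haad : ∀ d, 0 ≤ aa Q m cl α k d := fun d =>
        aa_nonneg (cl := cl) hm (k := k) (fun i hi => hα i (by omega)) d
      have hb0 : 0 ≤ b := div_nonneg (sum_nonneg fun d _ => haad d) (by positivity)
      have hbe : aa Q m cl α (k + 1) c / (K * mu Q m (cl (k + 1)) c) =
          b + a / (K * mu Q m (cl (k + 1)) c) := by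
        rw [haa, add_div]
      have hb1 : b + a / (K * mu Q m (cl (k + 1)) c) ≤ 1 := by
        rw [← hbe, div_le_one (by positivity)]
        exact hA (k + 1) hk q₀ hq₀
      -- the children
      set bd : κ → ℝ := fun d => aa Q m cl α k d / (K * mu Q m (cl k) d) with hbd
      set Φ := ∑ d ∈ R.image (cl k), mu Q m (cl k) d *
        (av Q m (cl k) s d ^ 2 / (1 + bd d)) with hΦ
      have hS : ∑ q ∈ R, m q * s q ^ 2 = ∑ d ∈ R.image (cl k),
          ∑ q ∈ Q.filter (fun q => cl k q = d), m q * s q ^ 2 := hsub _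
      have h1 : ∑ d ∈ R.image (cl k), en Q m s cl α k d ≤
          4 * K * (∑ q ∈ R, m q * s q ^ 2 - Φ) := by
        rw [hS, hΦ, ← sum_sub_distrib, mul_sum]
        refine sum_le_sum fun d hd => ?_
        obtain ⟨q, hq, rfl⟩ := mem_image.1 hd
        exact ih' q (hRQ q hq)
      have hbd0 : ∀ d ∈ R.image (cl k), 0 ≤ bd d := fun d _ =>
        div_nonneg (haad d) (mul_nonneg hK.le (mu_nonneg hm _ _))
      have hcs := cs_step (Q := R.image (cl k)) (w := fun d => mu Q m (cl k) d)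
        (f := fun d => av Q m (cl k) s d) (b := bd) (fun d _ => mu_nonneg hm _ _) hbd0
      have e1 : ∑ d ∈ R.image (cl k), mu Q m (cl k) d * av Q m (cl k) s d =
          mu Q m (cl (k + 1)) c * f := by
        rw [hf, mul_av hm, ← hR, hsub]
        exact sum_congr rfl fun d _ => mul_av hm _ _ _
      have e2 : ∑ d ∈ R.image (cl k), mu Q m (cl k) d * (1 + bd d) =
          mu Q m (cl (k + 1)) c * (1 + b) := by
        have e3 : ∀ d ∈ R.image (cl k), mu Q m (cl k) d * (1 + bd d) =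
            mu Q m (cl k) d + aa Q m cl α k d / K := by
          intro d _
          rw [hbd]
          rcases (mu_nonneg hm (cl k) d).eq_or_lt with h0 | h0
          · have h1 : aa Q m cl α k d = 0 := zero_of_mu hm h0.symm _
            simp [← h0, h1]
          · field_simp
        rw [sum_congr rfl e3, sum_add_distrib, ← hμ, ← sum_div, hb]
        field_simp
      rw [e1, e2, ← hΦ] at hcs
      have hΦ' : mu Q m (cl (k + 1)) c * (f ^ 2 / (1 + b)) ≤ Φ := by
        have h1b : 0 < 1 + b := by linarith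
        rw [← mul_div_assoc, div_le_iff₀ h1b]
        have h2 : (mu Q m (cl (k + 1)) c * f ^ 2) * mu Q m (cl (k + 1)) c ≤
            (Φ * (1 + b)) * mu Q m (cl (k + 1)) c := by
          refine le_trans (le_of_eq ?_) (hcs.trans (le_of_eq ?_))
          · ring
          · ring
        exact le_of_mul_le_mul_right h2 h
      have hns := num_step (S := ∑ q ∈ R, m q * s q ^ 2) (Φ := Φ) (f := f) (a := a) (b := b)
        hK h ha0 hb0 hb1 hΦ'
      rw [hen, hbe]
      linarith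

/-- **The Carleson embedding theorem** for nested finite partitions. -/
theorem carleson {Q : Finset ι} {m s : ι → ℝ} {cl : ℕ → ι → κ} {α : ℕ → ι → ℝ} {K : ℝ}
    (hm : ∀ q ∈ Q, 0 ≤ m q) (hK : 0 < K) {n : ℕ}
    (hcl : ∀ k < n, ∀ q ∈ Q, ∀ r ∈ Q, cl k q = cl k r → cl (k + 1) q = cl (k + 1) r)
    (hα : ∀ k ≤ n, ∀ q ∈ Q, 0 ≤ α k q)
    (hA : ∀ k ≤ n, ∀ q ∈ Q, aa Q m cl α k (cl k q) ≤ K * mu Q m (cl k) (cl k q)) :
    ∑ q ∈ Q, m q * ∑ i ∈ range (n + 1), α i q * av Q m (cl i) s (cl i q) ^ 2 ≤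
      4 * K * ∑ q ∈ Q, m q * s q ^ 2 := by
  classical
  rw [sum_classes Q (cl n), sum_classes Q (cl n) (fun q => m q * s q ^ 2), mul_sum]
  refine sum_le_sum fun c hc => ?_
  obtain ⟨q₀, hq₀, rfl⟩ := mem_image.1 hc
  have h := bellman (s := s) hm hK hcl hα hA n le_rfl q₀ hq₀
  refine h.trans ?_
  apply mul_le_mul_of_nonneg_left _ (by positivity)
  have h1 := mu_nonneg hm (cl n) (cl n q₀)
  have h2 := aa_nonneg (cl := cl) hm (k := n) hα (cl n q₀)
  have h3 : 0 ≤ mu Q m (cl n) (cl n q₀) * (av Q m (cl n) s (cl n q₀) ^ 2 /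
      (1 + aa Q m cl α n (cl n q₀) / (K * mu Q m (cl n) (cl n q₀)))) := by positivity
  linarith

end Vale.P028.Carl
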