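import Vale.Agent.P028.MathlibUsed
import Vale.Agent.P028.FQ.NTop
import Vale.Agent.P028.R226.Phase
import Vale.Agent.P028.XF0
attribute [-instance] ProperSMul.toContinuousSMul IsTopologicalTorsor.toContinuousSMul IdemSemiring.toCanonicallyOrderedAdd IdemSemiring.toMulLeftMono IdemSemiring.toMulRightMono AddQuantale.instAddLeftMono AddQuantale.instAddRightMono Quantale.instMulLeftMono Quantale.instMulRightMono FiniteDimensional.rclike_to_real IsScalarTower.complexToReal FiniteDimensional.complexToReal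

/-!
# One-sided rows of the new element: exits of fractions along a path of deficits, and the change of
measure for the natural weights
-/

namespace Vale.P028.NR

open Finset

/-! ### Chains of squares -/

/-- a finite family of numbers in `[0, x]`, each at most the square of every later one -/
theorem sum_sq_chain {f : ℕ → ℝ} {x : ℝ} (hx : x < 1) (E : Finset ℕ) (h0 : ∀ e ∈ E, 0 ≤ f e)
    (hfx : ∀ e ∈ E, f e ≤ x) (hsq : ∀ e₁ ∈ E, ∀ e₂ ∈ E, e₁ < e₂ → f e₁ ≤ f e₂ ^ 2) :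
    ∑ e ∈ E, f e ≤ x / (1 - x) ∨ E = ∅ := by
  classical
  have key : ∀ n : ℕ, ∀ E : Finset ℕ, E.card = n → (∀ e ∈ E, 0 ≤ f e) → (∀ e ∈ E, f e ≤ x) →
      (∀ e₁ ∈ E, ∀ e₂ ∈ E, e₁ < e₂ → f e₁ ≤ f e₂ ^ 2) → ∀ hE : E.Nonempty,
      ∑ e ∈ E, f e ≤ f (E.max' hE) / (1 - x) := by
    intro n
    induction n with
    | zero =>
      intro E hc _ _ _ hE
      rw [card_eq_zero] at hc
      exact absurd hE (by rw [hc]; exact not_nonempty_empty)
    | succ n ih =>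
      intro E hc h0 hfx hsq hE
      set M := E.max' hE with hM
      have hME : M ∈ E := E.max'_mem hE
      have hx1 : 0 < 1 - x := by linarith
      have hfM0 := h0 M hME
      have hfMx := hfx M hME
      rw [← add_sum_erase E f hME]
      rcases (E.erase M).eq_empty_or_nonempty with he | he
      · rw [he, sum_empty, add_zero, le_div_iff₀ hx1]
        nlinarith
      · have h1 := ih (E.erase M) (by rw [card_erase_of_mem hME, hc]; rfl)
          (fun e h => h0 e (mem_of_mem_erase h)) (fun e h => hfx e (mem_of_mem_erase h))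
          (fun e₁ h1 e₂ h2 => hsq e₁ (mem_of_mem_erase h1) e₂ (mem_of_mem_erase h2)) he
        set M' := (E.erase M).max' he with hM'
        have hM'E : M' ∈ E.erase M := (E.erase M).max'_mem he
        have hlt : M' < M := lt_of_le_of_ne (E.le_max' _ (mem_of_mem_erase hM'E))
          (ne_of_mem_erase hM'E)
        have h2 := hsq M' (mem_of_mem_erase hM'E) M hME hlt
        have h3 : f M' / (1 - x) ≤ x * f M / (1 - x) := by
          apply div_le_div_of_nonneg_right _ hx1.le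
          nlinarith
        calc f M + ∑ e ∈ E.erase M, f e ≤ f M + x * f M / (1 - x) := by linarith
          _ = f M / (1 - x) := by
            field_simp
            ring
  rcases E.eq_empty_or_nonempty with he | he
  · exact Or.inr he
  · left
    refine (key _ E rfl h0 hfx hsq he).trans ?_
    exact div_le_div_of_nonneg_right (hfx _ (E.max'_mem he)) (by linarith)

/-! ### Exits -/

variable {γ c0 ρb ψ : ℝ} {M : ℕ → ℕ}

/-- the fraction `G` is regular at stage `t` along the path of deficits `M` -/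
def Rg (γ : ℝ) (M : ℕ → ℕ) (ψ : ℝ) (t : ℕ) (G : ℚ) : Prop :=
  2 * PA.Kc γ ψ (M t) G ≤ ((M t : ℝ) * ψ) ^ (-(1 / 3) : ℝ)

/-- the fraction `G` may be adopted before stage `e`, is regular until `e - 1` and not at `e` -/
def Exit (γ c0 ρb : ℝ) (M : ℕ → ℕ) (ψ : ℝ) (e : ℕ) (G : ℚ) : Prop :=
  ∃ j < e, (M j : ℝ) * ψ ≤ ρb ∧ PA.Kc γ ψ (M j) G ≤ 2 * ((M j : ℝ) * ψ) ^ (-c0) ∧
    (∀ t, j ≤ t → t < e → Rg γ M ψ t G) ∧ ¬ Rg γ M ψ e G

/-- fractions which are regular at the same stage are equal -/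
theorem Rg.unique (hψ : 0 < ψ) {t : ℕ} (hM : 0 < M t) {G₁ G₂ : ℚ} (h1 : Rg γ M ψ t G₁)
    (h2 : Rg γ M ψ t G₂) : G₁ = G₂ := by
  have hρ : 0 < (M t : ℝ) * ψ := mul_pos (by exact_mod_cast hM) hψ
  unfold Rg at h1 h2
  set x := ((M t : ℝ) * ψ) ^ (-(1 / 3) : ℝ) with hx
  refine PA.Kc_unique (γ := γ) (κ := x / 2) hψ hM (by linarith) (by linarith) ?_
  have e : x ^ 3 * ((M t : ℝ) * ψ) = 1 := by
    rw [hx, ← Real.rpow_natCast, ← Real.rpow_mul hρ.le]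
    nth_rewrite 2 [← Real.rpow_one ((M t : ℝ) * ψ)]
    rw [← Real.rpow_add hρ]
    norm_num
  calc 2 * (x / 2) ^ 3 * (M t * ψ) = (x ^ 3 * ((M t : ℝ) * ψ)) / 4 := by ring
    _ < 1 := by rw [e]; norm_num

theorem path_dvd (hdvd : ∀ t, M t ∣ M (t + 1)) {s t : ℕ} (h : s ≤ t) : M s ∣ M t := by
  induction t, h using Nat.le_induction with
  | base => exact dvd_rfl
  | succ t _ ih => exact ih.trans (hdvd t)

theorem path_le (hdvd : ∀ t, M t ∣ M (t + 1)) {s t : ℕ} (h : s ≤ t) (hM : ∀ t, 0 < M t) :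
    M s ≤ M t := Nat.le_of_dvd (hM t) (path_dvd hdvd h)

/-- two fractions with the same exit are equal -/
theorem Exit.unique (hψ : 0 < ψ) (hM : ∀ t, 0 < M t) {e : ℕ}
    {G₁ G₂ : ℚ} (h1 : Exit γ c0 ρb M ψ e G₁) (h2 : Exit γ c0 ρb M ψ e G₂) : G₁ = G₂ := by
  obtain ⟨j1, hj1, -, -, r1, -⟩ := h1
  obtain ⟨j2, hj2, -, -, r2, -⟩ := h2
  exact Rg.unique hψ (hM (e - 1)) (r1 (e - 1) (by omega) (by omega))
    (r2 (e - 1) (by omega) (by omega))

/-- the adoption of the later exit is after the earlier exit -/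
theorem Exit.adopt (hψ : 0 < ψ) (hM : ∀ t, 0 < M t) {e₁ e₂ : ℕ}
    {G₁ G₂ : ℚ} (h1 : Exit γ c0 ρb M ψ e₁ G₁) (h2 : Exit γ c0 ρb M ψ e₂ G₂) (he : e₁ < e₂) :
    ∃ j, e₁ ≤ j ∧ j < e₂ ∧ (M j : ℝ) * ψ ≤ ρb ∧
      PA.Kc γ ψ (M j) G₂ ≤ 2 * ((M j : ℝ) * ψ) ^ (-c0) ∧ ¬ Rg γ M ψ e₂ G₂ := by
  obtain ⟨j1, hj1, -, -, r1, x1⟩ := h1
  obtain ⟨j2, hj2, b2, a2, r2, x2⟩ := h2
  refine ⟨j2, ?_, hj2, b2, a2, x2⟩
  by_contra hlt
  push Not at hlt
  have hG : G₁ = G₂ := Rg.unique hψ (hM (e₁ - 1)) (r1 (e₁ - 1) (by omega) (by omega))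
    (r2 (e₁ - 1) (by omega) (by omega))
  rw [hG] at x1
  exact x1 (r2 e₁ (by omega) he)

/-- all the exits but the last one are at small radii -/
theorem Exit.small (hψ : 0 < ψ) (hM : ∀ t, 0 < M t) (hdvd : ∀ t, M t ∣ M (t + 1)) {e₁ e₂ : ℕ}
    {G₁ G₂ : ℚ} (h1 : Exit γ c0 ρb M ψ e₁ G₁) (h2 : Exit γ c0 ρb M ψ e₂ G₂) (he : e₁ < e₂) :
    (M e₁ : ℝ) * ψ ≤ ρb := by
  obtain ⟨j, h3, h4, h5, -⟩ := Exit.adopt hψ hM h1 h2 he
  refine le_trans ?_ h5
  exact mul_le_mul_of_nonneg_right (by exact_mod_cast path_le hdvd h3 hM) hψ.le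

/-- **The radii at the exits grow at least as square roots.** -/
theorem Exit.grow (hψ : 0 < ψ) (hM : ∀ t, 0 < M t) (hdvd : ∀ t, M t ∣ M (t + 1)) {e₁ e₂ : ℕ}
    {G₁ G₂ : ℚ} (h1 : Exit γ c0 ρb M ψ e₁ G₁) (h2 : Exit γ c0 ρb M ψ e₂ G₂) (he : e₁ < e₂)
    (hc0 : 0 < c0) (hc1 : c0 ≤ 1 / 12) (hρ : (M e₂ : ℝ) * ψ ≤ 1 / 4096) :
    (M e₁ : ℝ) * ψ ≤ ((M e₂ : ℝ) * ψ) ^ 2 := by
  obtain ⟨j2, hj, hj2, b2, a2, x2⟩ := Exit.adopt hψ hM h1 h2 he
  have hmono : ∀ s t : ℕ, s ≤ t → (M s : ℝ) * ψ ≤ (M t : ℝ) * ψ := fun s t h =>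
    mul_le_mul_of_nonneg_right (by exact_mod_cast path_le hdvd h hM) hψ.le
  have hpos : ∀ t, 0 < (M t : ℝ) * ψ := fun t => mul_pos (by exact_mod_cast hM t) hψ
  set ρ₁ : ℝ := (M e₁ : ℝ) * ψ with hρ₁
  set ρ₂ : ℝ := (M e₂ : ℝ) * ψ with hρ₂
  have hρ₁0 : 0 < ρ₁ := hpos e₁
  have hρ₂0 : 0 < ρ₂ := hpos e₂
  have h3 : ρ₂ ^ (-(1 / 3) : ℝ) < 4 * ρ₁ ^ (-c0) := by
    unfold Rg at x2
    push Not at x2
    have h4 : PA.Kc γ ψ (M e₂) G₂ ≤ PA.Kc γ ψ (M j2) G₂ :=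
      PA.Kc_mono γ ψ (path_dvd hdvd hj2.le) G₂
    have h5 : ((M j2 : ℝ) * ψ) ^ (-c0) ≤ ρ₁ ^ (-c0) :=
      Real.rpow_le_rpow_of_nonpos hρ₁0 (hmono _ _ hj) (by linarith)
    linarith
  -- hence the growth
  have h6 : ρ₁ ^ c0 < 4 * ρ₂ ^ (1 / 3 : ℝ) := by
    have e1 : ρ₂ ^ (-(1 / 3) : ℝ) = (ρ₂ ^ (1 / 3 : ℝ))⁻¹ := by
      rw [← Real.rpow_neg hρ₂0.le]
    have e2 : ρ₁ ^ (-c0) = (ρ₁ ^ c0)⁻¹ := Real.rpow_neg hρ₁0.le _
    rw [e1, e2] at h3
    have p1 : 0 < ρ₂ ^ (1 / 3 : ℝ) := Real.rpow_pos_of_pos hρ₂0 _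
    have p2 : 0 < ρ₁ ^ c0 := Real.rpow_pos_of_pos hρ₁0 _
    have h7 : (ρ₂ ^ (1 / 3 : ℝ))⁻¹ * (ρ₂ ^ (1 / 3 : ℝ) * ρ₁ ^ c0) <
        4 * (ρ₁ ^ c0)⁻¹ * (ρ₂ ^ (1 / 3 : ℝ) * ρ₁ ^ c0) :=
      mul_lt_mul_of_pos_right h3 (by positivity)
    have e3 : (ρ₂ ^ (1 / 3 : ℝ))⁻¹ * (ρ₂ ^ (1 / 3 : ℝ) * ρ₁ ^ c0) = ρ₁ ^ c0 := by
      field_simp
    have e4 : 4 * (ρ₁ ^ c0)⁻¹ * (ρ₂ ^ (1 / 3 : ℝ) * ρ₁ ^ c0) = 4 * ρ₂ ^ (1 / 3 : ℝ) := by
      field_simp
    rwa [e3, e4] at h7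
  have h8 : 4 * ρ₂ ^ (1 / 3 : ℝ) ≤ ρ₂ ^ (1 / 6 : ℝ) := by
    have e1 : ρ₂ ^ (1 / 3 : ℝ) = ρ₂ ^ (1 / 6 : ℝ) * ρ₂ ^ (1 / 6 : ℝ) := by
      rw [← Real.rpow_add hρ₂0]; norm_num
    have h9 : ρ₂ ^ (1 / 6 : ℝ) ≤ 1 / 4 := by
      calc ρ₂ ^ (1 / 6 : ℝ) ≤ (1 / 4096 : ℝ) ^ (1 / 6 : ℝ) :=
            Real.rpow_le_rpow hρ₂0.le hρ (by norm_num)
        _ = 1 / 4 := by
            rw [show (1 / 4096 : ℝ) = (1 / 4) ^ (6 : ℕ) by norm_num, ← Real.rpow_natCast,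
              ← Real.rpow_mul (by norm_num)]
            norm_num
    have p1 : 0 < ρ₂ ^ (1 / 6 : ℝ) := Real.rpow_pos_of_pos hρ₂0 _
    rw [e1]
    nlinarith
  have h10 : ρ₁ ≤ ρ₂ ^ (1 / 6 / c0) := by
    have h11 : (ρ₁ ^ c0) ^ (1 / c0) ≤ (ρ₂ ^ (1 / 6 : ℝ)) ^ (1 / c0) :=
      Real.rpow_le_rpow (Real.rpow_nonneg hρ₁0.le _) (h6.le.trans h8) (by positivity)
    rw [← Real.rpow_mul hρ₁0.le, ← Real.rpow_mul hρ₂0.le] at h11
    rw [show c0 * (1 / c0) = 1 by field_simp, Real.rpow_one] at h11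
    refine h11.trans (le_of_eq ?_)
    congr 1
    ring
  refine h10.trans ?_
  rw [← Real.rpow_natCast]
  refine Real.rpow_le_rpow_of_exponent_ge hρ₂0 (by linarith) ?_
  rw [div_div, le_div_iff₀ (by positivity)]
  push_cast
  linarith

open Classical in
/-- **The sum over the exits of a path** (exits at small radii). -/
theorem sum_exits (hψ : 0 < ψ) (hM : ∀ t, 0 < M t) (hdvd : ∀ t, M t ∣ M (t + 1))
    (hc0 : 0 < c0) (hc1 : c0 ≤ 1 / 12) {c : ℝ} (hc : 0 < c)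
    (hρb : ρb ≤ 1 / 4096) (hρb0 : 0 < ρb) {E : Finset ℕ}
    (hex : ∀ e ∈ E, ∃ G, Exit γ c0 ρb M ψ e G) (hsm : ∀ e ∈ E, (M e : ℝ) * ψ ≤ ρb) :
    ∑ e ∈ E, ((M e : ℝ) * ψ) ^ c ≤ ρb ^ c / (1 - ρb ^ c) := by
  have hpos : ∀ t, 0 < (M t : ℝ) * ψ := fun t => mul_pos (by exact_mod_cast hM t) hψ
  have hx1 : ρb ^ c < 1 := Real.rpow_lt_one hρb0.le (by linarith) hc
  have hx0 : 0 < ρb ^ c := Real.rpow_pos_of_pos hρb0 _
  have hsq : ∀ e₁ ∈ E, ∀ e₂ ∈ E, e₁ < e₂ →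
      ((M e₁ : ℝ) * ψ) ^ c ≤ (((M e₂ : ℝ) * ψ) ^ c) ^ 2 := by
    intro e₁ he₁ e₂ he₂ hlt
    obtain ⟨G₁, h1⟩ := hex e₁ he₁
    obtain ⟨G₂, h2⟩ := hex e₂ he₂
    have h5 := Exit.grow hψ hM hdvd h1 h2 hlt hc0 hc1 ((hsm e₂ he₂).trans hρb)
    calc ((M e₁ : ℝ) * ψ) ^ c ≤ (((M e₂ : ℝ) * ψ) ^ 2) ^ c :=
          Real.rpow_le_rpow (hpos _).le h5 hc.le
      _ = (((M e₂ : ℝ) * ψ) ^ c) ^ 2 := by
          rw [← Real.rpow_natCast, ← Real.rpow_natCast, ← Real.rpow_mul (hpos _).le,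
            ← Real.rpow_mul (hpos _).le, mul_comm (_ : ℝ) c]
  rcases sum_sq_chain (f := fun e => ((M e : ℝ) * ψ) ^ c) hx1 E
    (fun e _ => Real.rpow_nonneg (hpos e).le _)
    (fun e he => Real.rpow_le_rpow (hpos e).le (hsm e he) hc.le) hsq with h | h
  · exact h
  · rw [h, sum_empty]
    exact div_nonneg hx0.le (by linarith)

/-! ### The change of measure -/

/-- the factors `1 - 1 / p` -/
theorem one_sub_inv_pos {p : ℕ} (hp : p.Prime) : 0 < 1 - 1 / (p : ℝ) := by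
  have h : (1 : ℝ) < p := by exact_mod_cast hp.one_lt
  have h2 : 1 / (p : ℝ) < 1 := by
    rw [div_lt_one (by linarith)]
    exact h
  linarith

/-- the natural weights for `N` and for `D * N` -/
theorem wdv_le_mul {D N m : ℕ} (hD : 0 < D) (hN : 0 < N) (hm : m ∣ N) :
    wdv N m ≤ NT.Gn D * wdv (D * N) m := by
  classical
  have hm0 : m ≠ 0 := fun h => by rw [h, zero_dvd_iff] at hm; omega
  have hmr : (0 : ℝ) < m := by exact_mod_cast Nat.pos_of_ne_zero hm0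
  unfold wdv
  rw [if_pos hm, if_pos (hm.mul_left D)]
  set A := N.primeFactors.filter (fun p => m.factorization p < N.factorization p) with hA
  set B := (D * N).primeFactors.filter
    (fun p => m.factorization p < (D * N).factorization p) with hB
  have hBA : B ⊆ A ∪ D.primeFactors := by
    intro p hp
    rw [hB, mem_filter, Nat.mem_primeFactors, Nat.factorization_mul hD.ne' hN.ne',
      Finsupp.add_apply] at hp
    obtain ⟨⟨h1, h2, -⟩, h3⟩ := hp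
    rw [mem_union]
    by_cases h4 : p ∣ D
    · right
      exact Nat.mem_primeFactors.2 ⟨h1, h4, hD.ne'⟩
    · left
      rw [Nat.factorization_eq_zero_of_not_dvd h4, zero_add] at h3
      rw [hA, mem_filter, Nat.mem_primeFactors]
      exact ⟨⟨h1, (h1.dvd_mul.1 h2).resolve_left h4, hN.ne'⟩, h3⟩
  have hpr : ∀ p ∈ A ∪ D.primeFactors, p.Prime := by
    intro p hp
    rcases mem_union.1 hp with h | h
    · exact Nat.prime_of_mem_primeFactors (mem_filter.1 h).1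
    · exact Nat.prime_of_mem_primeFactors h
  have h1 : ∏ p ∈ A ∪ D.primeFactors, (1 - 1 / (p : ℝ)) ≤ ∏ p ∈ B, (1 - 1 / (p : ℝ)) := by
    rw [← prod_sdiff hBA]
    refine mul_le_of_le_one_left (prod_nonneg fun p hp => (one_sub_inv_pos (hpr p (hBA hp))).le) ?_
    refine prod_le_one (fun p hp => (one_sub_inv_pos (hpr p (mem_sdiff.1 hp).1)).le) fun p hp => ?_
    rw [sub_le_self_iff]
    positivity
  have h2 : (∏ p ∈ A, (1 - 1 / (p : ℝ))) * ∏ p ∈ D.primeFactors, (1 - 1 / (p : ℝ)) ≤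
      ∏ p ∈ A ∪ D.primeFactors, (1 - 1 / (p : ℝ)) := by
    rw [← prod_union_inter]
    exact mul_le_of_le_one_right (prod_nonneg fun p hp => (one_sub_inv_pos (hpr p hp)).le)
      (prod_le_one (fun p hp => (one_sub_inv_pos (hpr p (mem_union_left _ (mem_inter.1 hp).1))).le)
        fun p hp => by rw [sub_le_self_iff]; positivity)
  have h3 : 0 < ∏ p ∈ D.primeFactors, (1 - 1 / (p : ℝ)) :=
    prod_pos fun p hp => one_sub_inv_pos (Nat.prime_of_mem_primeFactors hp)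
  have h4 : NT.Gn D = (∏ p ∈ D.primeFactors, (1 - 1 / (p : ℝ)))⁻¹ := by
    unfold NT.Gn
    rw [prod_inv_distrib]
  rw [h4]
  have h5 : ∏ p ∈ A, (1 - 1 / (p : ℝ)) ≤
      (∏ p ∈ D.primeFactors, (1 - 1 / (p : ℝ)))⁻¹ * ∏ p ∈ B, (1 - 1 / (p : ℝ)) := by
    rw [← div_eq_inv_mul, le_div_iff₀ h3]
    exact h2.trans h1
  calc 1 / (m : ℝ) * ∏ p ∈ A, (1 - 1 / (p : ℝ)) ≤ 1 / (m : ℝ) *
      ((∏ p ∈ D.primeFactors, (1 - 1 / (p : ℝ)))⁻¹ * ∏ p ∈ B, (1 - 1 / (p : ℝ))) :=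
        mul_le_mul_of_nonneg_left h5 (by positivity)
    _ = _ := by ring

theorem Gn_nonneg' (D : ℕ) : 0 ≤ NT.Gn D := by
  unfold NT.Gn
  exact prod_nonneg fun p hp =>
    inv_nonneg.2 (one_sub_inv_pos (Nat.prime_of_mem_primeFactors hp)).le

/-- **The change of measure**: the multiples of `D`. -/
theorem wdv_shift {Q D : ℕ} (hQ : 0 < Q) (hD : 0 < D) {h : ℕ → ℝ} (h0 : ∀ m, 0 ≤ h m) :
    ∑ m ∈ Q.divisors, wdv Q m * (if D ∣ m then h m else 0) ≤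
      NT.Gn D / D * ∑ m ∈ Q.divisors, wdv Q m * h (D * m) := by
  classical
  have hDr : (0 : ℝ) < D := by exact_mod_cast hD
  have hR : 0 ≤ NT.Gn D / D * ∑ m ∈ Q.divisors, wdv Q m * h (D * m) :=
    mul_nonneg (div_nonneg (Gn_nonneg' D) hDr.le)
      (sum_nonneg fun m _ => mul_nonneg (wdv_nonneg _ _) (h0 _))
  have e0 : ∑ m ∈ Q.divisors, wdv Q m * (if D ∣ m then h m else 0) =
      ∑ m ∈ Q.divisors.filter (fun m => D ∣ m), wdv Q m * h m := by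
    rw [sum_filter]
    exact sum_congr rfl fun m _ => by split_ifs <;> simp
  rw [e0]
  by_cases hDQ : D ∣ Q
  · obtain ⟨R, rfl⟩ := hDQ
    have hR0 : 0 < R := by
      rcases Nat.eq_zero_or_pos R with h | h
      · rw [h, mul_zero] at hQ; exact absurd hQ (lt_irrefl _)
      · exact h
    have e : ∑ m ∈ (D * R).divisors.filter (fun m => D ∣ m), wdv (D * R) m * h m =
        ∑ m ∈ R.divisors, wdv (D * R) (D * m) * h (D * m) := by
      symm
      apply sum_bij (fun m _ => D * m)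
      · intro m hm
        rw [Nat.mem_divisors] at hm
        rw [mem_filter, Nat.mem_divisors]
        exact ⟨⟨Nat.mul_dvd_mul_left D hm.1, hQ.ne'⟩, Dvd.intro m rfl⟩
      · intro a _ b _ hab
        exact Nat.eq_of_mul_eq_mul_left hD hab
      · intro b hb
        rw [mem_filter, Nat.mem_divisors] at hb
        obtain ⟨⟨h1, _⟩, c, rfl⟩ := hb
        exact ⟨c, by rw [Nat.mem_divisors]; exact ⟨Nat.dvd_of_mul_dvd_mul_left hD h1, hR0.ne'⟩, rfl⟩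
      · intro m _
        rfl
    rw [e]
    calc ∑ m ∈ R.divisors, wdv (D * R) (D * m) * h (D * m)
        ≤ ∑ m ∈ R.divisors, NT.Gn D / D * (wdv (D * R) m * h (D * m)) := by
          refine sum_le_sum fun m hm => ?_
          have hmR := Nat.dvd_of_mem_divisors hm
          rw [wdv_mul_left hQ hmR]
          have h1 := wdv_le_mul hD hR0 hmR
          have h2 := h0 (D * m)
          calc 1 / (D : ℝ) * wdv R m * h (D * m) ≤
              1 / (D : ℝ) * (NT.Gn D * wdv (D * R) m) * h (D * m) := by gcongr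
            _ = _ := by ring
      _ = NT.Gn D / D * ∑ m ∈ R.divisors, wdv (D * R) m * h (D * m) := by rw [mul_sum]
      _ ≤ _ := by
          refine mul_le_mul_of_nonneg_left ?_ (div_nonneg (Gn_nonneg' D) hDr.le)
          refine sum_le_sum_of_subset_of_nonneg ?_ fun m _ _ =>
            mul_nonneg (wdv_nonneg _ _) (h0 _)
          exact Nat.divisors_subset_of_dvd hQ.ne' (dvd_mul_left R D)
  · rw [filter_false_of_mem (fun m hm hd => hDQ (hd.trans (Nat.dvd_of_mem_divisors hm))),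
      sum_empty]
    exact hR

/-- **The change of measure, families of divisors depending on a part of the deficit.** -/
theorem wdv_shift_fam {Q : ℕ} (hQ : 0 < Q) (φ : ℕ → ℕ) (DD : ℕ → Finset ℕ) {h : ℕ → ℝ}
    (h0 : ∀ m, 0 ≤ h m) (hD : ∀ c, ∀ D ∈ DD c, 0 < D ∧ ∀ m, 0 < m → φ (D * m) = φ m) :
    ∑ m ∈ Q.divisors, wdv Q m * (h m * ∑ D ∈ DD (φ m), if D ∣ m then 1 else 0) ≤
      ∑ m ∈ Q.divisors, wdv Q m * ∑ D ∈ DD (φ m), NT.Gn D / D * h (D * m) := by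
  classical
  set I := Q.divisors.image φ with hI
  have e1 : ∀ m ∈ Q.divisors, wdv Q m * (h m * ∑ D ∈ DD (φ m), if D ∣ m then (1 : ℝ) else 0) =
      ∑ c ∈ I, ∑ D ∈ DD c, wdv Q m * (if D ∣ m then (if φ m = c then h m else 0) else 0) := by
    intro m hm
    rw [← sum_subset (s₁ := {φ m}) (singleton_subset_iff.2 (mem_image_of_mem φ hm))
      (fun c _ hc => by
        rw [mem_singleton] at hc
        refine sum_eq_zero fun D _ => ?_
        have hc' : ¬ φ m = c := fun h => hc h.symm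
        rw [if_neg hc']
        simp), sum_singleton, mul_sum, mul_sum]
    refine sum_congr rfl fun D _ => ?_
    rw [if_pos rfl]
    split_ifs <;> simp
  have e2 : ∀ m ∈ Q.divisors, wdv Q m * ∑ D ∈ DD (φ m), NT.Gn D / D * h (D * m) =
      ∑ c ∈ I, ∑ D ∈ DD c, NT.Gn D / D *
        (wdv Q m * (if φ (D * m) = c then h (D * m) else 0)) := by
    intro m hm
    have hm0 : 0 < m := Nat.pos_of_dvd_of_pos (Nat.dvd_of_mem_divisors hm) hQ
    rw [← sum_subset (s₁ := {φ m}) (singleton_subset_iff.2 (mem_image_of_mem φ hm))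
      (fun c _ hc => by
        rw [mem_singleton] at hc
        refine sum_eq_zero fun D hDc => ?_
        rw [if_neg (fun h => hc (by rw [← h, (hD c D hDc).2 m hm0]))]
        simp), sum_singleton, mul_sum]
    refine sum_congr rfl fun D hDc => ?_
    rw [if_pos ((hD _ D hDc).2 m hm0)]
    ring
  rw [sum_congr rfl e1, sum_congr rfl e2, sum_comm, sum_comm (s := Q.divisors)]
  refine sum_le_sum fun c _ => ?_
  rw [sum_comm, sum_comm (s := Q.divisors)]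
  refine sum_le_sum fun D hDc => ?_
  have h1 := wdv_shift (D := D) hQ (hD c D hDc).1 (h := fun m => if φ m = c then h m else 0)
    (fun m => by split_ifs <;> simp [h0])
  rw [← mul_sum]
  exact h1

end Vale.P028.NR
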