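import Vale.Agent.P028.MathlibUsed
import Vale.Agent.P028.H359.NewRow0
import Vale.Agent.P028.H758.Self0
attribute [-instance] ProperSMul.toContinuousSMul IsTopologicalTorsor.toContinuousSMul IdemSemiring.toCanonicallyOrderedAdd IdemSemiring.toMulLeftMono IdemSemiring.toMulRightMono AddQuantale.instAddLeftMono AddQuantale.instAddRightMono Quantale.instMulLeftMono Quantale.instMulRightMono FiniteDimensional.rclike_to_real IsScalarTower.complexToReal FiniteDimensional.complexToReal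

/-!
# One-sided rows of the new element: the natural sum over the fractions of the partners
-/

namespace Vale.P028.NR

open Finset

/-! ### Divisors close to the full number -/

/-- the divisors of `d` which are larger than its power `3 / 4` -/
theorem sum_big_divisors {d : ℕ} (hd : 0 < d) :
    ∑ D ∈ d.divisors.filter (fun D => d ^ 3 < D ^ 4), (D : ℝ) ^ (-(9 / 20) : ℝ) ≤
      (d : ℝ) ^ (-(7 / 80) : ℝ) := by
  classical
  have hdr : (0 : ℝ) < d := by exact_mod_cast hd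
  have hd1 : (1 : ℝ) ≤ d := by exact_mod_cast hd
  set T := d.divisors.filter (fun D => d ^ 3 < D ^ 4) with hT
  -- number of these divisors
  have hcard : (T.card : ℝ) ≤ (d : ℝ) ^ (1 / 4 : ℝ) := by
    have hinj : Set.InjOn (fun D => d / D) (T : Set ℕ) := by
      intro a ha b hb hab
      have ha' := (Nat.mem_divisors.1 (mem_filter.1 ha).1).1
      have hb' := (Nat.mem_divisors.1 (mem_filter.1 hb).1).1
      have e1 := Nat.div_mul_cancel ha'
      have e2 := Nat.div_mul_cancel hb'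
      simp only at hab
      rw [← hab] at e2
      have h0 : 0 < d / a := Nat.div_pos (Nat.le_of_dvd hd ha') (Nat.pos_of_dvd_of_pos ha' hd)
      exact Nat.eq_of_mul_eq_mul_left h0 (e1.trans e2.symm)
    have hsub : T.image (fun D => d / D) ⊆ Icc 1 ⌊(d : ℝ) ^ (1 / 4 : ℝ)⌋₊ := by
      intro k hk
      obtain ⟨D, hD, rfl⟩ := mem_image.1 hk
      obtain ⟨h1, h2⟩ := mem_filter.1 hD
      have hDd := (Nat.mem_divisors.1 h1).1
      have hD0 : 0 < D := Nat.pos_of_dvd_of_pos hDd hd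
      have h0 : 0 < d / D := Nat.div_pos (Nat.le_of_dvd hd hDd) hD0
      refine mem_Icc.2 ⟨h0, Nat.le_floor ?_⟩
      have h3 : (d / D) ^ 4 ≤ d := by
        have e : d / D * D = d := Nat.div_mul_cancel hDd
        have h4 : (d / D) ^ 4 * D ^ 4 = d ^ 4 := by rw [← mul_pow, e]
        have h5 : (d / D) ^ 4 * d ^ 3 ≤ d * d ^ 3 := by
          calc (d / D) ^ 4 * d ^ 3 ≤ (d / D) ^ 4 * D ^ 4 := Nat.mul_le_mul_left _ h2.le
            _ = d * d ^ 3 := by rw [h4]; ring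
        exact Nat.le_of_mul_le_mul_right h5 (pow_pos hd 3)
      have h4 : (((d / D : ℕ) : ℝ)) ^ 4 ≤ d := by exact_mod_cast h3
      calc ((d / D : ℕ) : ℝ) = ((((d / D : ℕ) : ℝ)) ^ 4) ^ (1 / 4 : ℝ) := by
            rw [← Real.rpow_natCast, ← Real.rpow_mul (Nat.cast_nonneg _)]
            norm_num
        _ ≤ (d : ℝ) ^ (1 / 4 : ℝ) := Real.rpow_le_rpow (by positivity) h4 (by norm_num)
    have h1 : T.card ≤ ⌊(d : ℝ) ^ (1 / 4 : ℝ)⌋₊ := by
      rw [← card_image_of_injOn hinj]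
      have := card_le_card hsub
      rwa [Nat.card_Icc, Nat.add_sub_cancel] at this
    exact (Nat.cast_le.2 h1).trans (Nat.floor_le (by positivity))
  have hterm : ∀ D ∈ T, (D : ℝ) ^ (-(9 / 20) : ℝ) ≤ (d : ℝ) ^ (-(27 / 80) : ℝ) := by
    intro D hD
    obtain ⟨h1, h2⟩ := mem_filter.1 hD
    have hD0 : (0 : ℝ) < D := by
      exact_mod_cast Nat.pos_of_dvd_of_pos (Nat.mem_divisors.1 h1).1 hd
    have h3 : (d : ℝ) ^ (3 / 4 : ℝ) ≤ D := by
      have h4 : (d : ℝ) ^ 3 ≤ (D : ℝ) ^ 4 := by exact_mod_cast h2.le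
      calc (d : ℝ) ^ (3 / 4 : ℝ) = ((d : ℝ) ^ 3) ^ (1 / 4 : ℝ) := by
            rw [← Real.rpow_natCast, ← Real.rpow_mul hdr.le]
            norm_num
        _ ≤ ((D : ℝ) ^ 4) ^ (1 / 4 : ℝ) := Real.rpow_le_rpow (by positivity) h4 (by norm_num)
        _ = D := by
            rw [← Real.rpow_natCast, ← Real.rpow_mul hD0.le]
            norm_num
    calc (D : ℝ) ^ (-(9 / 20) : ℝ) ≤ ((d : ℝ) ^ (3 / 4 : ℝ)) ^ (-(9 / 20) : ℝ) :=
          Real.rpow_le_rpow_of_nonpos (by positivity) h3 (by norm_num)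
      _ = (d : ℝ) ^ (-(27 / 80) : ℝ) := by
          rw [← Real.rpow_mul hdr.le]
          norm_num
  calc ∑ D ∈ T, (D : ℝ) ^ (-(9 / 20) : ℝ) ≤ ∑ _D ∈ T, (d : ℝ) ^ (-(27 / 80) : ℝ) :=
        sum_le_sum hterm
    _ = T.card * (d : ℝ) ^ (-(27 / 80) : ℝ) := by rw [sum_const, nsmul_eq_mul]
    _ ≤ (d : ℝ) ^ (1 / 4 : ℝ) * (d : ℝ) ^ (-(27 / 80) : ℝ) :=
        mul_le_mul_of_nonneg_right hcard (by positivity)
    _ = (d : ℝ) ^ (-(7 / 80) : ℝ) := by
        rw [← Real.rpow_add hdr]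
        norm_num

/-- the same with the harm of the divisor -/
theorem sum_big_divisors_Gn {d : ℕ} (hd : 0 < d) :
    ∑ D ∈ d.divisors.filter (fun D => d ^ 3 < D ^ 4), NT.Gn D / D * (D : ℝ) ^ (9 / 20 : ℝ) ≤
      128 * (d : ℝ) ^ (-(7 / 80) : ℝ) := by
  refine le_trans (sum_le_sum fun D hD => ?_) (le_of_le_of_eq
    (mul_le_mul_of_nonneg_left (sum_big_divisors hd) (by norm_num : (0:ℝ) ≤ 128)) rfl |>
    fun h => by rw [mul_sum] at h; exact h)
  have hD0 : 0 < D := Nat.pos_of_dvd_of_pos (Nat.mem_divisors.1 (mem_filter.1 hD).1).1 hd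
  have hDr : (0 : ℝ) < D := by exact_mod_cast hD0
  have h1 := SK.Gn_le_rpow hD0
  calc NT.Gn D / D * (D : ℝ) ^ (9 / 20 : ℝ) ≤
      128 * (D : ℝ) ^ (1 / 10 : ℝ) / D * (D : ℝ) ^ (9 / 20 : ℝ) := by gcongr
    _ = 128 * ((D : ℝ) ^ (1 / 10 : ℝ) * (D : ℝ) ^ (-1 : ℝ) * (D : ℝ) ^ (9 / 20 : ℝ)) := by
        rw [Real.rpow_neg_one]
        ring
    _ = 128 * (D : ℝ) ^ (-(9 / 20) : ℝ) := by
        rw [← Real.rpow_add hDr, ← Real.rpow_add hDr]
        norm_num

/-! ### Paths -/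

/-- a system of paths of deficits: `P t m` is the part of `m` outside stage `t` -/
structure Path (P : ℕ → ℕ → ℕ) : Prop where
  pos : ∀ t m, 0 < P t m
  dvd : ∀ t m, P t m ∣ P (t + 1) m
  idem : ∀ t e m, t ≤ e → P t (P e m) = P t m
  mul : ∀ e D m, 0 < D → 0 < m → P e D = 1 → P e (D * m) = P e m

variable {P : ℕ → ℕ → ℕ} {γ c0 ρb : ℝ}

/-- the size `2 ^ (-s)` -/
noncomputable def sz (s : ℕ) : ℝ := (1 / 2) ^ s

theorem sz_pos (s : ℕ) : 0 < sz s := by unfold sz; positivity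

/-- `e` is an exit (at a small radius) for the deficit `c` outside stage `e` and the size `s` -/
def Ex (P : ℕ → ℕ → ℕ) (γ c0 ρb : ℝ) (e s c : ℕ) : Prop :=
  (∃ G, Exit γ c0 ρb (fun t => P t c) (sz s) e G) ∧ (P e c : ℝ) * sz s ≤ ρb

open Classical in
/-- some fraction with the property -/
noncomputable def ch (Φ : ℚ → Prop) : ℚ := if h : ∃ G, Φ G then h.choose else 0

theorem ch_spec {Φ : ℚ → Prop} (h : ∃ G, Φ G) : Φ (ch Φ) := by
  unfold ch
  rw [dif_pos h]
  exact h.choose_spec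

/-- the fraction of the exit -/
noncomputable def Gx (P : ℕ → ℕ → ℕ) (γ c0 ρb : ℝ) (e s c : ℕ) : ℚ :=
  ch (fun G => Exit γ c0 ρb (fun t => P t c) (sz s) e G)

/-- its denominator -/
noncomputable def dx (P : ℕ → ℕ → ℕ) (γ c0 ρb : ℝ) (e s c : ℕ) : ℕ :=
  (((P e c : ℕ) : ℚ) * Gx P γ c0 ρb e s c).den

open Classical in
/-- large divisors of `d` without primes outside stage `e` -/
noncomputable def DXf (P : ℕ → ℕ → ℕ) (e : ℕ) (b : Prop) (d : ℕ) (x : ℝ) : Finset ℕ :=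
  if b ∧ x ^ (-(1 / 3) : ℝ) < 2 * (d : ℝ) then
    d.divisors.filter (fun D => d ^ 3 < D ^ 4 ∧ P e D = 1) else ∅

/-- the divisors by which the denominator may drop after the exit -/
noncomputable def DX (P : ℕ → ℕ → ℕ) (γ c0 ρb : ℝ) (e s c : ℕ) : Finset ℕ :=
  DXf P e (Ex P γ c0 ρb e s c) (dx P γ c0 ρb e s c) ((P e c : ℝ) * sz s)

theorem exit_congr {M M' : ℕ → ℕ} {ψ : ℝ} {e : ℕ} {G : ℚ} (h : ∀ t ≤ e, M t = M' t) :
    Exit γ c0 ρb M ψ e G ↔ Exit γ c0 ρb M' ψ e G := by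
  unfold Exit
  constructor
  · rintro ⟨j, hj, h1, h2, h3, h4⟩
    refine ⟨j, hj, by rw [← h j hj.le]; exact h1, by rw [← h j hj.le]; exact h2,
      fun t ht ht' => ?_, ?_⟩
    · have := h3 t ht ht'
      unfold Rg at this ⊢
      rwa [h t ht'.le] at this
    · unfold Rg at h4 ⊢
      rwa [h e le_rfl] at h4
  · rintro ⟨j, hj, h1, h2, h3, h4⟩
    refine ⟨j, hj, by rw [h j hj.le]; exact h1, by rw [h j hj.le]; exact h2,
      fun t ht ht' => ?_, ?_⟩
    · have := h3 t ht ht'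
      unfold Rg at this ⊢
      rwa [← h t ht'.le] at this
    · unfold Rg at h4 ⊢
      rwa [← h e le_rfl] at h4

theorem Path.ex_iff (hP : Path P) {e s m : ℕ} :
    Ex P γ c0 ρb e s (P e m) ↔ Ex P γ c0 ρb e s m := by
  unfold Ex
  have h1 : ∀ G, Exit γ c0 ρb (fun t => P t (P e m)) (sz s) e G ↔
      Exit γ c0 ρb (fun t => P t m) (sz s) e G := fun G =>
    exit_congr fun t ht => hP.idem t e m ht
  simp only [h1, hP.idem e e m le_rfl]

theorem Path.gx_eq (hP : Path P) {e s m : ℕ} :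
    Gx P γ c0 ρb e s (P e m) = Gx P γ c0 ρb e s m := by
  have h1 : (fun G => Exit γ c0 ρb (fun t => P t (P e m)) (sz s) e G) =
      fun G => Exit γ c0 ρb (fun t => P t m) (sz s) e G := by
    funext G
    exact propext (exit_congr fun t ht => hP.idem t e m ht)
  unfold Gx
  rw [h1]

theorem Path.dx_eq (hP : Path P) {e s m : ℕ} :
    dx P γ c0 ρb e s (P e m) = dx P γ c0 ρb e s m := by
  unfold dx
  rw [hP.gx_eq, hP.idem e e m le_rfl]

theorem Path.DX_eq (hP : Path P) {e s m : ℕ} :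
    DX P γ c0 ρb e s (P e m) = DX P γ c0 ρb e s m := by
  unfold DX
  rw [propext (hP.ex_iff (γ := γ) (c0 := c0) (ρb := ρb) (e := e) (s := s) (m := m)), hP.dx_eq,
    hP.idem e e m le_rfl]

/-- the fraction of an exit is unique -/
theorem Path.gx_unique (hP : Path P) {e s m : ℕ} {G : ℚ}
    (h : Exit γ c0 ρb (fun t => P t m) (sz s) e G) : G = Gx P γ c0 ρb e s m := by
  exact Exit.unique (sz_pos s) (fun t => hP.pos t m) h
    (ch_spec (Φ := fun G => Exit γ c0 ρb (fun t => P t m) (sz s) e G) ⟨G, h⟩)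

open Classical in
/-- **The natural sum over the exits.** -/
theorem sum_nat (hP : Path P) (hc0 : 0 < c0) (hc1 : c0 ≤ 1 / 12) (hρb : ρb ≤ 1 / 4096)
    (hρb0 : 0 < ρb) {Q : ℕ} (hQ : 0 < Q) (i n : ℕ) {h : ℝ → ℝ} (h0 : ∀ x, 0 ≤ h x)
    (hh : ∀ (D : ℕ) (x : ℝ), 0 < D → 0 < x → h (D * x) ≤ (D : ℝ) ^ (9 / 20 : ℝ) * h x) {H : ℝ}
    (hH : ∀ x, 0 < x → ∑ s ∈ range n, h (x * sz s) ≤ H) {c : ℝ} (hc : 0 < c) (hc2 : c ≤ 7 / 240) :
    ∑ m ∈ Q.divisors, wdv Q m * ∑ s ∈ range n, h (m * sz s) *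
      (2 + ∑ e ∈ (range (i + 1)).filter (fun e => Ex P γ c0 ρb e s m), ((P e m : ℝ) * sz s) ^ c +
        ∑ e ∈ range (i + 1), ∑ D ∈ DX P γ c0 ρb e s m, (if D ∣ m then (1 : ℝ) else 0)) ≤
      (2 + 257 * (ρb ^ c / (1 - ρb ^ c))) * H := by
  set B := ρb ^ c / (1 - ρb ^ c) with hB
  have hx1 : ρb ^ c < 1 := Real.rpow_lt_one hρb0.le (by linarith) hc
  have hx0 : 0 < ρb ^ c := Real.rpow_pos_of_pos hρb0 _
  have hB0 : 0 ≤ B := div_nonneg hx0.le (by linarith)
  -- the sum over the exits of one path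
  have hpath : ∀ m s : ℕ, ∑ e ∈ (range (i + 1)).filter (fun e => Ex P γ c0 ρb e s m),
      ((P e m : ℝ) * sz s) ^ c ≤ B := by
    intro m s
    exact sum_exits (M := fun t => P t m) (γ := γ) (sz_pos s) (fun t => hP.pos t m)
      (fun t => hP.dvd t m) hc0 hc1 hc hρb hρb0 (fun e he => (mem_filter.1 he).2.1)
      (fun e he => (mem_filter.1 he).2.2)
  have hsum1 : ∑ m ∈ Q.divisors, wdv Q m = 1 := wdv_sum Q hQ
  have hmpos : ∀ m ∈ Q.divisors, 0 < m := fun m hm =>
    Nat.pos_of_dvd_of_pos (Nat.mem_divisors.1 hm).1 hQ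
  -- the two simple parts
  have hA : ∑ m ∈ Q.divisors, wdv Q m * ∑ s ∈ range n, h (m * sz s) *
      (2 + ∑ e ∈ (range (i + 1)).filter (fun e => Ex P γ c0 ρb e s m), ((P e m : ℝ) * sz s) ^ c) ≤
      (2 + B) * H := by
    calc ∑ m ∈ Q.divisors, wdv Q m * ∑ s ∈ range n, h (m * sz s) *
      (2 + ∑ e ∈ (range (i + 1)).filter (fun e => Ex P γ c0 ρb e s m), ((P e m : ℝ) * sz s) ^ c) ≤
          ∑ m ∈ Q.divisors, wdv Q m * ((2 + B) * H) := by
          refine sum_le_sum fun m hm => mul_le_mul_of_nonneg_left ?_ (wdv_nonneg _ _)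
          calc ∑ s ∈ range n, h (m * sz s) * (2 + ∑ e ∈ (range (i + 1)).filter
                (fun e => Ex P γ c0 ρb e s m), ((P e m : ℝ) * sz s) ^ c) ≤
                ∑ s ∈ range n, h (m * sz s) * (2 + B) := by
                refine sum_le_sum fun s _ => mul_le_mul_of_nonneg_left ?_ (h0 _)
                linarith [hpath m s]
            _ = (2 + B) * ∑ s ∈ range n, h (m * sz s) := by rw [← sum_mul, mul_comm]
            _ ≤ (2 + B) * H := mul_le_mul_of_nonneg_left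
                (hH m (by exact_mod_cast hmpos m hm)) (by linarith)
      _ = (2 + B) * H := by rw [← sum_mul, hsum1, one_mul]
  -- the dropped fractions
  have hdrop : ∀ s ∈ range n, ∀ e ∈ range (i + 1),
      ∑ m ∈ Q.divisors, wdv Q m * (h (m * sz s) *
        ∑ D ∈ DX P γ c0 ρb e s m, (if D ∣ m then (1 : ℝ) else 0)) ≤
      ∑ m ∈ Q.divisors, wdv Q m * (h (m * sz s) *
        (if Ex P γ c0 ρb e s m then 256 * ((P e m : ℝ) * sz s) ^ c else 0)) := by
    intro s _ e _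
    have h1 := wdv_shift_fam hQ (P e) (fun c => DX P γ c0 ρb e s c)
      (h := fun m => h ((m : ℝ) * sz s)) (fun m => h0 _) (by
        intro c D hD
        unfold DX DXf at hD
        split_ifs at hD with hcon
        · obtain ⟨hD1, hD2, hD3⟩ := mem_filter.1 hD
          have hD0 : 0 < D := Nat.pos_of_dvd_of_pos (Nat.mem_divisors.1 hD1).1 (Rat.den_pos _)
          exact ⟨hD0, fun m hm => hP.mul e D m hD0 hm hD3⟩
        · exact absurd hD (by simp))
    simp only [hP.DX_eq] at h1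
    refine h1.trans ?_
    refine sum_le_sum fun m hm => mul_le_mul_of_nonneg_left ?_ (wdv_nonneg _ _)
    have hm0 := hmpos m hm
    have hmr : (0 : ℝ) < m := by exact_mod_cast hm0
    have hms : 0 < (m : ℝ) * sz s := mul_pos hmr (sz_pos s)
    have hhm := h0 ((m : ℝ) * sz s)
    by_cases hcon : Ex P γ c0 ρb e s m ∧
        ((P e m : ℝ) * sz s) ^ (-(1 / 3) : ℝ) < 2 * (dx P γ c0 ρb e s m : ℝ)
    · rw [if_pos hcon.1]
      set d := dx P γ c0 ρb e s m with hd
      have hd0 : 0 < d := Rat.den_pos _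
      have hdr : (0 : ℝ) < d := by exact_mod_cast hd0
      have hDXs : DX P γ c0 ρb e s m ⊆ d.divisors.filter (fun D => d ^ 3 < D ^ 4) := by
        unfold DX DXf
        rw [if_pos hcon]
        intro D hD
        obtain ⟨h2, h3, -⟩ := mem_filter.1 hD
        exact mem_filter.2 ⟨h2, h3⟩
      have hρe : 0 < (P e m : ℝ) * sz s := mul_pos (by exact_mod_cast hP.pos e m) (sz_pos s)
      have hρe1 : (P e m : ℝ) * sz s ≤ 1 := by linarith [hcon.1.2]
      calc ∑ D ∈ DX P γ c0 ρb e s m, NT.Gn D / D * h (((D * m : ℕ) : ℝ) * sz s)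
          ≤ ∑ D ∈ d.divisors.filter (fun D => d ^ 3 < D ^ 4),
              NT.Gn D / D * h (((D * m : ℕ) : ℝ) * sz s) :=
            sum_le_sum_of_subset_of_nonneg hDXs fun D _ _ =>
              mul_nonneg (div_nonneg (Gn_nonneg' D) (Nat.cast_nonneg _)) (h0 _)
        _ ≤ ∑ D ∈ d.divisors.filter (fun D => d ^ 3 < D ^ 4),
              NT.Gn D / D * (D : ℝ) ^ (9 / 20 : ℝ) * h ((m : ℝ) * sz s) := by
            refine sum_le_sum fun D hD => ?_
            have hD0 : 0 < D := Nat.pos_of_dvd_of_pos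
              (Nat.mem_divisors.1 (mem_filter.1 hD).1).1 hd0
            rw [mul_assoc]
            refine mul_le_mul_of_nonneg_left ?_
              (div_nonneg (Gn_nonneg' D) (Nat.cast_nonneg _))
            have := hh D ((m : ℝ) * sz s) hD0 hms
            rwa [show ((D * m : ℕ) : ℝ) * sz s = (D : ℝ) * ((m : ℝ) * sz s) by push_cast; ring]
        _ = (∑ D ∈ d.divisors.filter (fun D => d ^ 3 < D ^ 4),
              NT.Gn D / D * (D : ℝ) ^ (9 / 20 : ℝ)) * h ((m : ℝ) * sz s) := by rw [sum_mul]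
        _ ≤ 128 * (d : ℝ) ^ (-(7 / 80) : ℝ) * h ((m : ℝ) * sz s) :=
            mul_le_mul_of_nonneg_right (sum_big_divisors_Gn hd0) hhm
        _ ≤ 256 * ((P e m : ℝ) * sz s) ^ c * h ((m : ℝ) * sz s) := by
            refine mul_le_mul_of_nonneg_right ?_ hhm
            have h2 : ((P e m : ℝ) * sz s) ^ (-(1 / 3) : ℝ) / 2 ≤ d := by linarith [hcon.2]
            have h3 : (d : ℝ) ^ (-(7 / 80) : ℝ) ≤
                (((P e m : ℝ) * sz s) ^ (-(1 / 3) : ℝ) / 2) ^ (-(7 / 80) : ℝ) :=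
              Real.rpow_le_rpow_of_nonpos (by positivity) h2 (by norm_num)
            have h4 : (((P e m : ℝ) * sz s) ^ (-(1 / 3) : ℝ) / 2) ^ (-(7 / 80) : ℝ) =
                ((P e m : ℝ) * sz s) ^ (7 / 240 : ℝ) * 2 ^ (7 / 80 : ℝ) := by
              rw [Real.div_rpow (by positivity) (by norm_num), ← Real.rpow_mul hρe.le,
                Real.rpow_neg (by norm_num : (0:ℝ) ≤ 2) (7 / 80), div_inv_eq_mul]
              norm_num
            have h5 : (2 : ℝ) ^ (7 / 80 : ℝ) ≤ 2 := by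
              calc (2 : ℝ) ^ (7 / 80 : ℝ) ≤ 2 ^ (1 : ℝ) :=
                    Real.rpow_le_rpow_of_exponent_le (by norm_num) (by norm_num)
                _ = 2 := Real.rpow_one 2
            have h6 : ((P e m : ℝ) * sz s) ^ (7 / 240 : ℝ) ≤ ((P e m : ℝ) * sz s) ^ c :=
              Real.rpow_le_rpow_of_exponent_ge hρe hρe1 hc2
            have h7 : 0 < ((P e m : ℝ) * sz s) ^ (7 / 240 : ℝ) := Real.rpow_pos_of_pos hρe _
            rw [h4] at h3
            nlinarith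
        _ = h ((m : ℝ) * sz s) * (256 * ((P e m : ℝ) * sz s) ^ c) := by ring
    · have h2 : DX P γ c0 ρb e s m = ∅ := by
        unfold DX DXf
        rw [if_neg hcon]
      rw [h2, sum_empty]
      refine mul_nonneg hhm ?_
      split_ifs
      · have := hP.pos e m
        have := sz_pos s
        positivity
      · exact le_rfl
  have hC : ∑ m ∈ Q.divisors, wdv Q m * ∑ s ∈ range n, h (m * sz s) *
      (∑ e ∈ range (i + 1), ∑ D ∈ DX P γ c0 ρb e s m, (if D ∣ m then (1 : ℝ) else 0)) ≤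
      256 * B * H := by
    have e1 : ∑ m ∈ Q.divisors, wdv Q m * ∑ s ∈ range n, h (m * sz s) *
      (∑ e ∈ range (i + 1), ∑ D ∈ DX P γ c0 ρb e s m, (if D ∣ m then (1 : ℝ) else 0)) =
        ∑ s ∈ range n, ∑ e ∈ range (i + 1), ∑ m ∈ Q.divisors, wdv Q m * (h (m * sz s) *
          ∑ D ∈ DX P γ c0 ρb e s m, (if D ∣ m then (1 : ℝ) else 0)) := by
      simp only [mul_sum]
      rw [sum_comm]
      refine sum_congr rfl fun s _ => ?_
      rw [sum_comm]
    rw [e1]
    refine (sum_le_sum fun s hs => sum_le_sum fun e he => hdrop s hs e he).trans ?_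
    have e2 : ∑ s ∈ range n, ∑ e ∈ range (i + 1), ∑ m ∈ Q.divisors, wdv Q m * (h (m * sz s) *
        (if Ex P γ c0 ρb e s m then 256 * ((P e m : ℝ) * sz s) ^ c else 0)) =
        ∑ m ∈ Q.divisors, wdv Q m * ∑ s ∈ range n, h (m * sz s) * (256 *
          ∑ e ∈ (range (i + 1)).filter (fun e => Ex P γ c0 ρb e s m), ((P e m : ℝ) * sz s) ^ c) := by
      have e3 : ∀ m s : ℕ, 256 * ∑ e ∈ (range (i + 1)).filter (fun e => Ex P γ c0 ρb e s m),
          ((P e m : ℝ) * sz s) ^ c = ∑ e ∈ range (i + 1),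
            (if Ex P γ c0 ρb e s m then 256 * ((P e m : ℝ) * sz s) ^ c else 0) := by
        intro m s
        rw [mul_sum, sum_filter]
      simp only [e3, mul_sum]
      rw [sum_comm' (s := Q.divisors) (t := fun _ => range n) (t' := range n)
        (s' := fun _ => Q.divisors) (by intro x y; tauto)]
      refine sum_congr rfl fun s _ => ?_
      rw [sum_comm]
    rw [e2]
    calc ∑ m ∈ Q.divisors, wdv Q m * ∑ s ∈ range n, h (m * sz s) * (256 *
          ∑ e ∈ (range (i + 1)).filter (fun e => Ex P γ c0 ρb e s m), ((P e m : ℝ) * sz s) ^ c)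
        ≤ ∑ m ∈ Q.divisors, wdv Q m * (256 * B * H) := by
          refine sum_le_sum fun m hm => mul_le_mul_of_nonneg_left ?_ (wdv_nonneg _ _)
          calc ∑ s ∈ range n, h (m * sz s) * (256 * ∑ e ∈ (range (i + 1)).filter
                (fun e => Ex P γ c0 ρb e s m), ((P e m : ℝ) * sz s) ^ c) ≤
                ∑ s ∈ range n, h (m * sz s) * (256 * B) := by
                refine sum_le_sum fun s _ => mul_le_mul_of_nonneg_left ?_ (h0 _)
                linarith [hpath m s]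
            _ = 256 * B * ∑ s ∈ range n, h (m * sz s) := by rw [← sum_mul, mul_comm]
            _ ≤ 256 * B * H := mul_le_mul_of_nonneg_left
                (hH m (by exact_mod_cast hmpos m hm)) (by positivity)
      _ = 256 * B * H := by rw [← sum_mul, hsum1, one_mul]
  have hsplit : ∀ m : ℕ, ∑ s ∈ range n, h (m * sz s) *
      (2 + ∑ e ∈ (range (i + 1)).filter (fun e => Ex P γ c0 ρb e s m), ((P e m : ℝ) * sz s) ^ c +
        ∑ e ∈ range (i + 1), ∑ D ∈ DX P γ c0 ρb e s m, (if D ∣ m then (1 : ℝ) else 0)) =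
      (∑ s ∈ range n, h (m * sz s) *
      (2 + ∑ e ∈ (range (i + 1)).filter (fun e => Ex P γ c0 ρb e s m), ((P e m : ℝ) * sz s) ^ c)) +
      ∑ s ∈ range n, h (m * sz s) *
      (∑ e ∈ range (i + 1), ∑ D ∈ DX P γ c0 ρb e s m, (if D ∣ m then (1 : ℝ) else 0)) := by
    intro m
    rw [← sum_add_distrib]
    exact sum_congr rfl fun s _ => by ring
  have e5 : ∑ m ∈ Q.divisors, wdv Q m * ∑ s ∈ range n, h (m * sz s) *
      (2 + ∑ e ∈ (range (i + 1)).filter (fun e => Ex P γ c0 ρb e s m), ((P e m : ℝ) * sz s) ^ c +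
        ∑ e ∈ range (i + 1), ∑ D ∈ DX P γ c0 ρb e s m, (if D ∣ m then (1 : ℝ) else 0)) =
      (∑ m ∈ Q.divisors, wdv Q m * ∑ s ∈ range n, h (m * sz s) *
      (2 + ∑ e ∈ (range (i + 1)).filter (fun e => Ex P γ c0 ρb e s m), ((P e m : ℝ) * sz s) ^ c)) +
      ∑ m ∈ Q.divisors, wdv Q m * ∑ s ∈ range n, h (m * sz s) *
      (∑ e ∈ range (i + 1), ∑ D ∈ DX P γ c0 ρb e s m, (if D ∣ m then (1 : ℝ) else 0)) := by
    rw [← sum_add_distrib]
    refine sum_congr rfl fun m _ => ?_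
    rw [hsplit m, mul_add]
  rw [e5]
  have : (2 + 257 * B) * H = (2 + B) * H + 256 * B * H := by ring
  rw [this]
  exact add_le_add hA hC

end Vale.P028.NR
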