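import Vale.Agent.P028.MathlibUsed
import Vale.Agent.P028.H359.NewRow1
import Vale.Agent.P028.H383.TAd
import Vale.Agent.P028.H758.Self1
attribute [-instance] ProperSMul.toContinuousSMul IsTopologicalTorsor.toContinuousSMul IdemSemiring.toCanonicallyOrderedAdd IdemSemiring.toMulLeftMono IdemSemiring.toMulRightMono AddQuantale.instAddLeftMono AddQuantale.instAddRightMono Quantale.instMulLeftMono Quantale.instMulRightMono FiniteDimensional.rclike_to_real IsScalarTower.complexToReal FiniteDimensional.complexToReal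

/-!
# One-sided rows of the new element: the fractions of the partners
-/

namespace Vale.P028.NR

open Finset CF SK

variable {g : Cfg}

/-! ### The paths of deficits -/

theorem Rg_fac' (t m p : ℕ) : (CF.Rg g t m).factorization p =
    if p ∈ PO (z g t) (N g) then m.factorization p else 0 :=
  factorization_prod_pow_of (fun _ hp => PO_prime hp) _ p

theorem Rg_pos' (t m : ℕ) : 0 < CF.Rg g t m :=
  prod_pow_pos_of (fun _ hp => PO_prime hp) _

/-- the parts of a number outside the stages -/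
theorem path_Rg : Path (fun t m => CF.Rg g t m) where
  pos := Rg_pos'
  dvd := by
    intro t m
    rw [← Nat.factorization_le_iff_dvd (Rg_pos' t m).ne' (Rg_pos' (t + 1) m).ne']
    intro p
    rw [Rg_fac', Rg_fac']
    by_cases h : p ∈ PO (z g t) (N g)
    · rw [if_pos h, if_pos (PO_mono (z_anti g (Nat.le_succ t)) h)]
    · rw [if_neg h]
      exact Nat.zero_le _
  idem := by
    intro t e m hte
    apply Nat.eq_of_factorization_eq (Rg_pos' _ _).ne' (Rg_pos' _ _).ne'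
    intro p
    rw [Rg_fac', Rg_fac', Rg_fac']
    by_cases h : p ∈ PO (z g t) (N g)
    · rw [if_pos h, if_pos h, if_pos (PO_mono (z_anti g hte) h)]
    · rw [if_neg h, if_neg h]
  mul := by
    intro e D m hD hm h1
    apply Nat.eq_of_factorization_eq (Rg_pos' _ _).ne' (Rg_pos' _ _).ne'
    intro p
    rw [Rg_fac', Rg_fac', Nat.factorization_mul hD.ne' hm.ne', Finsupp.add_apply]
    by_cases h : p ∈ PO (z g e) (N g)
    · rw [if_pos h, if_pos h]
      have h2 := Rg_fac' (g := g) e D p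
      rw [if_pos h] at h2
      rw [h1, Nat.factorization_one] at h2
      simp only [Finsupp.coe_zero, Pi.zero_apply] at h2
      omega
    · rw [if_neg h, if_neg h]

/-- the deficits outside an earlier stage -/
theorem M_eq_Rg {t i r : ℕ} (hti : t ≤ i) : M g t r = CF.Rg g t (M g i r) := by
  apply Nat.eq_of_factorization_eq (M_pos g t r).ne' (Rg_pos' _ _).ne'
  intro p
  have m1 : (M g t r).factorization p = if p ∈ PO (z g t) (N g) then
    kc g r p - r.factorization p else 0 := od_fac _ _ _ _ _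
  have m2 : (M g i r).factorization p = if p ∈ PO (z g i) (N g) then
    kc g r p - r.factorization p else 0 := od_fac _ _ _ _ _
  rw [Rg_fac', m1, m2]
  by_cases h : p ∈ PO (z g t) (N g)
  · rw [if_pos h, if_pos h, if_pos (PO_mono (z_anti g hti) h)]
  · rw [if_neg h, if_neg h]

/-! ### The size of a modulus -/

/-- the dyadic class of the radius -/
noncomputable def siz (g : Cfg) (r : ℕ) : ℕ := PA.dy (1 / ψ g r)

theorem siz_le {r : ℕ} (h : ψ g r ≤ 1) : ψ g r ≤ sz (siz g r) ∧ sz (siz g r) < 2 * ψ g r := by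
  have hψ := ψ_pos g r
  have h1 : 1 ≤ 1 / ψ g r := by rw [le_div_iff₀ hψ]; linarith
  have h2 := PA.dy_le h1
  have h3 := PA.lt_dy (x := 1 / ψ g r) (by positivity)
  have e : sz (siz g r) = 1 / (2 : ℝ) ^ (siz g r) := by
    unfold sz
    rw [one_div_pow]
  have h4 : (0 : ℝ) < 2 ^ (siz g r) := by positivity
  rw [e]
  change (2 : ℝ) ^ (siz g r) ≤ 1 / ψ g r at h2
  change 1 / ψ g r < 2 * (2 : ℝ) ^ (siz g r) at h3
  constructor
  · rw [le_div_iff₀ h4]
    rw [le_div_iff₀ hψ] at h2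
    linarith
  · rw [div_lt_iff₀ h4]
    rw [div_lt_iff₀ hψ] at h3
    nlinarith

/-! ### The fractions of the partners -/

/-- the denominators of a product -/
theorem den_gcd {k d : ℕ} {x : ℚ} (hd : x.den = d) :
    d ≤ Nat.gcd k d * ((k : ℚ) * x).den := by
  set D := Nat.gcd k d with hD
  set e := ((k : ℚ) * x).den with he
  have hd0 : 0 < d := by rw [← hd]; exact x.den_pos
  have h1 : (d : ℤ) ∣ (e : ℤ) * k := by
    have h2 : (((k : ℚ) * x).num : ℚ) = x * (((e : ℤ) * (k : ℤ) : ℤ) : ℚ) := by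
      have h3 := Rat.mul_den_eq_num ((k : ℚ) * x)
      rw [← he] at h3
      push_cast
      rw [← h3]
      ring
    have := den_dvd_of_mul_int (x := x) h2
    rwa [hd] at this
  have h1' : d ∣ e * k := by exact_mod_cast h1
  have h2 : d ∣ e * D := by
    have h3 : d ∣ Nat.gcd (e * k) (e * d) := Nat.dvd_gcd h1' (dvd_mul_left d e)
    rwa [Nat.gcd_mul_left] at h3
  have he0 : 0 < e := Rat.den_pos _
  have hD0 : 0 < D := Nat.gcd_pos_of_pos_right k hd0
  calc d ≤ e * D := Nat.le_of_dvd (Nat.mul_pos he0 hD0) h2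
    _ = D * e := mul_comm _ _

/-- **The three kinds of fractions of a partner.** -/
theorem cases_G {i r : ℕ} {G : ℚ} {b : Bool} (h : st g i r = some (G, b)) (hψ1 : ψ g r ≤ 1)
    (hc1 : g.K.P.c0 ≤ 1 / 12) (hρ : g.K.P.ρ0 ≤ 1 / 8192) :
    Rg g.γ (fun t => CF.Rg g t (M g i r)) (sz (siz g r)) i G ∨
    (∃ e ≤ i, Exit g.γ g.K.P.c0 (2 * g.K.P.ρ0) (fun t => CF.Rg g t (M g i r)) (sz (siz g r)) e G ∧
      2 * g.K.P.ρ0 < (CF.Rg g e (M g i r) : ℝ) * sz (siz g r)) ∨
    ∃ e ≤ i, Ex (fun t m => CF.Rg g t m) g.γ g.K.P.c0 (2 * g.K.P.ρ0) e (siz g r) (M g i r) ∧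
      G = Gx (fun t m => CF.Rg g t m) g.γ g.K.P.c0 (2 * g.K.P.ρ0) e (siz g r) (M g i r) ∧
      (((((CF.Rg g e (M g i r) : ℝ) * sz (siz g r)) ^ (-(1 / 3) : ℝ)) / 2 ≤
        (CF.KK g i r G) ^ 4) ∨
      ∃ D ∈ DX (fun t m => CF.Rg g t m) g.γ g.K.P.c0 (2 * g.K.P.ρ0) e (siz g r) (M g i r),
        D ∣ M g i r) := by
  classical
  obtain ⟨j, hj1, hji, hcand, -, -⟩ := PA.exists_adopt g.K.P (dat g) h
  obtain ⟨hcr, hcK⟩ := hcand
  set s := siz g r with hs
  set m := M g i r with hm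
  obtain ⟨hs1, hs2⟩ := siz_le hψ1
  rw [← hs] at hs1 hs2
  have hψ := ψ_pos g r
  have hsz := sz_pos s
  have hc0 := g.K.P.c0_pos
  set Mp : ℕ → ℕ := fun t => CF.Rg g t m with hMp
  have hMpos : ∀ t, 0 < Mp t := fun t => Rg_pos' t m
  have hMdvd : ∀ t, Mp t ∣ Mp (t + 1) := fun t => (path_Rg (g := g)).dvd t m
  have hMM : ∀ t ≤ i, M g t r = Mp t := fun t ht => M_eq_Rg ht
  have hx : ∀ t, 0 < (Mp t : ℝ) * sz s := fun t => mul_pos (by exact_mod_cast hMpos t) hsz
  -- the adoption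
  have hrhoj : PA.rho (dat g) j r = (Mp j : ℝ) * ψ g r := by
    rw [← hMM j hji]
    rfl
  have hxj : (Mp j : ℝ) * sz s ≤ 2 * g.K.P.ρ0 := by
    have h1 : (Mp j : ℝ) * sz s ≤ 2 * ((Mp j : ℝ) * ψ g r) := by
      have h2 : (0 : ℝ) < Mp j := by exact_mod_cast hMpos j
      nlinarith
    rw [hrhoj] at hcr
    linarith
  have hKle : ∀ t ≤ i, PA.Kc g.γ (sz s) (Mp t) G ≤ CF.KK g t r G := by
    intro t ht
    have e : CF.KK g t r G = PA.Kc g.γ (ψ g r) (Mp t) G := by
      rw [← hMM t ht]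
      rfl
    rw [e]
    unfold PA.Kc
    refine max_le_max le_rfl ?_
    exact div_le_div_of_nonneg_left (abs_nonneg _) hψ hs1
  have hadK : PA.Kc g.γ (sz s) (Mp j) G ≤ 2 * ((Mp j : ℝ) * sz s) ^ (-g.K.P.c0) := by
    refine (hKle j hji).trans ?_
    have h1 : CF.KK g j r G ≤ ((Mp j : ℝ) * ψ g r) ^ (-g.K.P.c0) := by
      rw [← hrhoj]
      exact hcK
    have h2 : ((Mp j : ℝ) * sz s) / 2 ≤ (Mp j : ℝ) * ψ g r := by
      have h2 : (0 : ℝ) < Mp j := by exact_mod_cast hMpos j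
      nlinarith
    have h3 : ((Mp j : ℝ) * ψ g r) ^ (-g.K.P.c0) ≤ (((Mp j : ℝ) * sz s) / 2) ^ (-g.K.P.c0) :=
      Real.rpow_le_rpow_of_nonpos (by have := hx j; positivity) h2 (by linarith)
    have h4 : (((Mp j : ℝ) * sz s) / 2) ^ (-g.K.P.c0) =
        ((Mp j : ℝ) * sz s) ^ (-g.K.P.c0) * 2 ^ g.K.P.c0 := by
      rw [Real.div_rpow (hx j).le (by norm_num), Real.rpow_neg (by norm_num : (0:ℝ) ≤ 2)]
      field_simp
    have h5 : (2 : ℝ) ^ g.K.P.c0 ≤ 2 := by
      calc (2 : ℝ) ^ g.K.P.c0 ≤ 2 ^ (1 : ℝ) :=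
            Real.rpow_le_rpow_of_exponent_le (by norm_num) (by linarith)
        _ = 2 := Real.rpow_one 2
    have h6 : 0 < ((Mp j : ℝ) * sz s) ^ (-g.K.P.c0) := Real.rpow_pos_of_pos (hx j) _
    calc CF.KK g j r G ≤ ((Mp j : ℝ) * sz s) ^ (-g.K.P.c0) * 2 ^ g.K.P.c0 := by
          rw [← h4]; exact h1.trans h3
      _ ≤ ((Mp j : ℝ) * sz s) ^ (-g.K.P.c0) * 2 := mul_le_mul_of_nonneg_left h5 h6.le
      _ = _ := mul_comm _ _
  have hregj : Rg g.γ Mp (sz s) j G := by
    unfold Rg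
    set x := (Mp j : ℝ) * sz s with hxd
    have hx0 : 0 < x := hx j
    have hx1 : x ≤ 1 / 4096 := by linarith
    have h1 : (4 : ℝ) ≤ x ^ (-(1 / 6) : ℝ) := by
      calc (4 : ℝ) = (1 / 4096 : ℝ) ^ (-(1 / 6) : ℝ) := by
            rw [show (1 / 4096 : ℝ) = (4 : ℝ) ^ (-6 : ℝ) by
              rw [Real.rpow_neg (by norm_num)]; norm_num, ← Real.rpow_mul (by norm_num)]
            norm_num
        _ ≤ x ^ (-(1 / 6) : ℝ) := Real.rpow_le_rpow_of_nonpos hx0 hx1 (by norm_num)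
    have h2 : 0 < x ^ (-g.K.P.c0) := Real.rpow_pos_of_pos hx0 _
    calc 2 * PA.Kc g.γ (sz s) (Mp j) G ≤ 4 * x ^ (-g.K.P.c0) := by linarith
      _ ≤ x ^ (-(1 / 6) : ℝ) * x ^ (-g.K.P.c0) := mul_le_mul_of_nonneg_right h1 h2.le
      _ = x ^ (-(1 / 6) + -g.K.P.c0 : ℝ) := (Real.rpow_add hx0 _ _).symm
      _ ≤ x ^ (-(1 / 3) : ℝ) :=
          Real.rpow_le_rpow_of_exponent_ge hx0 (by linarith) (by linarith)
  by_cases hregi : Rg g.γ Mp (sz s) i G
  · exact Or.inl hregi
  right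
  -- the exit
  have hex : ∃ t, j < t ∧ ¬ Rg g.γ Mp (sz s) t G := by
    refine ⟨i, lt_of_le_of_ne hji ?_, hregi⟩
    intro h0
    rw [← h0] at hregi
    exact hregi hregj
  set e := Nat.find hex with he
  obtain ⟨hje, hnreg⟩ := Nat.find_spec hex
  rw [← he] at hje hnreg
  have hei : e ≤ i := Nat.find_min' hex ⟨lt_of_le_of_ne hji (by
    intro h0
    rw [← h0] at hregi
    exact hregi hregj), hregi⟩
  have hE : Exit g.γ g.K.P.c0 (2 * g.K.P.ρ0) Mp (sz s) e G := by
    refine ⟨j, hje, hxj, hadK, fun t ht ht' => ?_, hnreg⟩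
    rcases ht.eq_or_lt with h0 | h0
    · rw [← h0]; exact hregj
    · by_contra hcon
      exact Nat.find_min hex ht' ⟨h0, hcon⟩
  by_cases hbig : 2 * g.K.P.ρ0 < (Mp e : ℝ) * sz s
  · exact Or.inl ⟨e, hei, hE, hbig⟩
  right
  push Not at hbig
  have hEx : Ex (fun t m => CF.Rg g t m) g.γ g.K.P.c0 (2 * g.K.P.ρ0) e s m := ⟨⟨G, hE⟩, hbig⟩
  have hGx : G = Gx (fun t m => CF.Rg g t m) g.γ g.K.P.c0 (2 * g.K.P.ρ0) e s m :=
    (path_Rg (g := g)).gx_unique hE
  refine ⟨e, hei, hEx, hGx, ?_⟩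
  have hKe : ((Mp e : ℝ) * sz s) ^ (-(1 / 3) : ℝ) < 2 * PA.Kc g.γ (sz s) (Mp e) G := by
    unfold Rg at hnreg
    push Not at hnreg
    exact hnreg
  set Ke := PA.Kc g.γ (sz s) (Mp e) G with hKedef
  set Ki := PA.Kc g.γ (sz s) (Mp i) G with hKidef
  have hKi1 : 1 ≤ Ki := PA.one_le_Kc _ _ _ _
  have hKir : Ki ≤ CF.KK g i r G := hKle i le_rfl
  have hMi : Mp i = m := (hMM i le_rfl).symm
  by_cases hK4 : Ke ≤ Ki ^ 4
  · left
    have h1 : Ki ^ 4 ≤ (CF.KK g i r G) ^ 4 := pow_le_pow_left₀ (by linarith) hKir 4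
    change ((Mp e : ℝ) * sz s) ^ (-(1 / 3) : ℝ) / 2 ≤ _
    linarith
  · right
    push Not at hK4
    have hKi4 : Ki ≤ Ki ^ 4 := le_self_pow₀ hKi1 (by norm_num)
    have harch : |g.γ - (G : ℝ)| / sz s ≤ Ki := le_max_right _ _
    have hden : Ke = ((((Mp e : ℕ) : ℚ) * G).den : ℝ) := by
      rw [hKedef]
      unfold PA.Kc
      refine max_eq_left ?_
      by_contra hcon
      push Not at hcon
      have : Ke = |g.γ - (G : ℝ)| / sz s := by
        rw [hKedef]
        unfold PA.Kc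
        exact max_eq_right hcon.le
      linarith
    set d := (((Mp e : ℕ) : ℚ) * G).den with hd
    have hdx : dx (fun t m => CF.Rg g t m) g.γ g.K.P.c0 (2 * g.K.P.ρ0) e s m = d := by
      unfold dx
      rw [← hGx]
    have hd0 : 0 < d := Rat.den_pos _
    -- the quotient
    have hMem : Mp e ∣ m := by
      rw [← hMi]
      exact path_dvd hMdvd hei
    obtain ⟨k, hk⟩ := hMem
    have hm0 : 0 < m := M_pos g i r
    have hk0 : 0 < k := by
      rcases Nat.eq_zero_or_pos k with h0 | h0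
      · rw [h0, mul_zero] at hk; omega
      · exact h0
    set e' := (((Mp i : ℕ) : ℚ) * G).den with he'
    have hkden : ((k : ℚ) * (((Mp e : ℕ) : ℚ) * G)).den = e' := by
      rw [he']
      congr 1
      rw [hMi, hk]
      push_cast
      ring
    have he'K : (e' : ℝ) ≤ Ki := le_max_left _ _
    have he4 : (e' : ℝ) ^ 4 < d := by
      calc (e' : ℝ) ^ 4 ≤ Ki ^ 4 := pow_le_pow_left₀ (Nat.cast_nonneg _) he'K 4
        _ < Ke := hK4
        _ = d := hden
    have he4' : e' ^ 4 < d := by exact_mod_cast he4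
    set D := Nat.gcd k d with hD
    have hD0 : 0 < D := Nat.gcd_pos_of_pos_right k hd0
    have hge : d ≤ D * e' := by
      have := den_gcd (k := k) (x := ((Mp e : ℕ) : ℚ) * G) hd.symm
      rwa [hkden] at this
    have hD4 : d ^ 3 < D ^ 4 := by
      have h1 : d ^ 4 ≤ D ^ 4 * e' ^ 4 := by
        rw [← mul_pow]
        exact Nat.pow_le_pow_left hge 4
      have h2 : D ^ 4 * e' ^ 4 < D ^ 4 * d := Nat.mul_lt_mul_of_pos_left he4' (pow_pos hD0 4)
      have h3 : d ^ 3 * d < D ^ 4 * d := by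
        calc d ^ 3 * d = d ^ 4 := by ring
          _ < D ^ 4 * d := lt_of_le_of_lt h1 h2
      exact Nat.lt_of_mul_lt_mul_right h3
    have hDd : D ∣ d := Nat.gcd_dvd_right k d
    have hDk : D ∣ k := Nat.gcd_dvd_left k d
    have hPD : CF.Rg g e D = 1 := by
      apply Nat.eq_of_factorization_eq (Rg_pos' _ _).ne' one_ne_zero
      intro p
      rw [Rg_fac', Nat.factorization_one]
      simp only [Finsupp.coe_zero, Pi.zero_apply]
      by_cases hp : p ∈ PO (z g e) (N g)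
      · rw [if_pos hp]
        have h1 : m.factorization p = (Mp e).factorization p + k.factorization p := by
          rw [hk, Nat.factorization_mul (hMpos e).ne' hk0.ne', Finsupp.add_apply]
        have h2 : (Mp e).factorization p = m.factorization p := by
          rw [hMp]
          simp only
          rw [Rg_fac', if_pos hp]
        have h3 : D.factorization p ≤ k.factorization p :=
          (Nat.factorization_le_iff_dvd hD0.ne' hk0.ne').2 hDk p
        omega
      · rw [if_neg hp]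
    refine ⟨D, ?_, hDk.trans (by rw [hk]; exact dvd_mul_left _ _)⟩
    unfold DX DXf
    rw [hdx, if_pos]
    · exact mem_filter.2 ⟨Nat.mem_divisors.2 ⟨hDd, hd0.ne'⟩, hD4, hPD⟩
    · refine ⟨hEx, ?_⟩
      rw [hden] at hKe
      exact hKe

end Vale.P028.NR
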