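import Vale.Agent.P028.MathlibUsed
import Vale.Agent.P028.R26.OmtB
import Vale.Agent.P028.H530.Delta
import Vale.Agent.P028.H359.NewRow3
attribute [-instance] ProperSMul.toContinuousSMul IsTopologicalTorsor.toContinuousSMul IdemSemiring.toCanonicallyOrderedAdd IdemSemiring.toMulLeftMono IdemSemiring.toMulRightMono AddQuantale.instAddLeftMono AddQuantale.instAddRightMono Quantale.instMulLeftMono Quantale.instMulRightMono FiniteDimensional.rclike_to_real IsScalarTower.complexToReal FiniteDimensional.complexToReal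

/-!
# The one-sided row of class F at one stage: charge the element with the larger rest
-/

namespace Vale.P028.SK.NR

open Finset CF RN RK

variable {g : Cfg}

/-! ### Omitted primes and radii -/

/-- an element with an omitted prime inside stage `i` has a small radius at stage `i` -/
def DRho (g : Cfg) (δ : ℕ → ℕ → ℝ) : Prop :=
  ∀ r ∈ g.V, ∀ i p : ℕ, p ∈ Pm g r → p ≤ z g i → δ r p ≠ 0 →
    PA.rho (dat g) i r ≤ g.K.P.ρ0

theorem rho_mono_le {i j : ℕ} (h : i ≤ j) (r : ℕ) :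
    PA.rho (dat g) i r ≤ PA.rho (dat g) j r := by
  induction j, h using Nat.le_induction with
  | base => exact le_rfl
  | succ j _ ih => exact ih.trans (PA.rho_mono (dat g) j r)

theorem DRho_dd (hV : g.V ⊆ Icc 1 (N g)) (c1 c : ℝ) : DRho g (dd g c1 c) := by
  intro r hr i p hp hpz hne
  obtain ⟨hpp, hpq⟩ := Pm_prime g hp
  have hq1 := mem_Icc.1 (hV hr)
  have hpN : p ≤ N g := (Nat.le_of_dvd hq1.1 hpq).trans hq1.2
  have e : N g - (N g - p) = p := by omega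
  have hj : N g - p < N g := by
    have := hpp.pos
    omega
  obtain ⟨s, hs, ⟨-, t, ht, hst⟩, h2, h3, -⟩ := dd_ne (by rw [e]; exact hne) hj
  have h4 : nxw g r s ≤ t := nx_le_of_mem ht hst
  obtain ⟨j, hj1, hj2, hNw, rfl⟩ := mem_NwP.1 ht
  have h5 : z g j < p := by omega
  have h6 : i < j := by
    by_contra hlt
    have := z_anti g (not_lt.1 hlt)
    omega
  exact (rho_mono_le h6.le r).trans (PA.ChS.rho_le _ _ hNw.ch)

/-- the radius of the automaton is at most the radius -/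
theorem rho_le_M (i r : ℕ) : PA.rho (dat g) i r ≤ (M g i r : ℝ) * ψ g r := le_of_eq rfl

/-- the radius is at most twice the radius of the automaton -/
theorem M_le_rho (i r : ℕ) : (M g i r : ℝ) * ψ g r ≤ 2 * PA.rho (dat g) i r := by
  have h1 : (M g i r : ℝ) * ψ g r = PA.rho (dat g) i r := rfl
  have h2 := PA.rho_pos (dat g) i r
  linarith

/-- the radii of the two elements of a clean pair -/
theorem rho_pair (hX : 1 ≤ g.X) (hV : g.V ⊆ Icc 1 (N g)) {i q r : ℕ} (hz : zs g ≤ z g i)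
    (hq : q ∈ g.V) (hr : r ∈ g.V) (hc : Clean g (z g i) q r) :
    (M g i r : ℝ) * ψ g r * rcof (z g i) (N g) (kc g q) q r =
      (M g i q : ℝ) * ψ g q * rcof (z g i) (N g) (kc g q) r q := by
  obtain ⟨e1, e2, -, -, -⟩ := clean_cofac hV hz hq hr hc
  obtain ⟨h2, h3⟩ := Dl_eq (g := g) hX (mem_Icc.1 (hV hq)).1 (mem_Icc.1 (hV hr)).1
  rw [e2] at h2
  rw [e1] at h3
  push_cast at h2 h3
  linarith

/-! ### The rest grows with the threshold -/

theorem rst_mono (g : Cfg) (δ : ℕ → ℕ → ℝ) {t t' : ℕ} (h : t ≤ t') (B q n : ℕ) :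
    rst g δ t B q n ≤ rst g δ t' B q n := by
  classical
  unfold rst
  refine Nat.le_of_dvd (prod_pos fun p hp => pow_pos
    (Nat.prime_of_mem_primeFactors (mem_filter.1 hp).1).pos _) ?_
  refine prod_dvd_prod_of_subset _ _ _ ?_
  intro p hp
  obtain ⟨h1, h2⟩ := mem_filter.1 hp
  refine mem_filter.2 ⟨h1, fun h3 => h2 ?_⟩
  exact ⟨lt_of_le_of_lt h h3.1, h3.2⟩

theorem yK_mono' (zs₀ : ℕ) {K K' : ℝ} (hK : 1 ≤ K) (h : K ≤ K') : yK zs₀ K ≤ yK zs₀ K' := by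
  unfold yK
  refine max_le_max le_rfl (Nat.ceil_le_ceil ?_)
  exact Real.rpow_le_rpow (Real.log_nonneg hK) (Real.log_le_log (by linarith) h) (by norm_num)

/-! ### The class -/

/-- **Class F at the scale `κ`, where `q` has the larger rest** (with the threshold `y(κ ^ 2)`). -/
def TAfQ (g : Cfg) (d : ℕ → ℕ → ℝ) (κ : ℝ) (i q r : ℕ) (n : ℤ) : Prop :=
  TAj g i q r n ∧ Dl g q r ≤ z g i ∧ ∃ F G : ℚ,
    (∃ b, st g i q = some (F, b)) ∧ (∃ b, st g i r = some (G, b)) ∧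
    (∀ s, i ≤ s → s ≤ nst g → yK (zs g) (KS g i q r F G) < z g s →
      (∃ c, st g s q = some (F, c)) ∧ ∃ c, st g s r = some (G, c)) ∧
    κ ≤ KS g i q r F G ∧ KS g i q r F G < κ ^ 2 ∧
    (KS g i q r F G) ^ (1 / 8 : ℝ) ≤
      mrs g d (yK (zs g) (KS g i q r F G)) (BB g i q r F G) i q r ∧
    rst g d (yK (zs g) (κ ^ 2)) (BB g i q r F G) r (rcof (z g i) (N g) (kc g q) r q) ≤
      rst g d (yK (zs g) (κ ^ 2)) (BB g i q r F G) q (rcof (z g i) (N g) (kc g q) q r)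

/-- the weight of the row -/
noncomputable def rowW (g : Cfg) (δ : ℕ → ℕ → ℝ) (t i q r : ℕ) (F G : ℚ) : ℝ :=
  omw g δ t (BB g i q r F G) q (rcof (z g i) (N g) (kc g q) q r) *
    (omt g δ t (BB g i q r F G) q (rcof (z g i) (N g) (kc g q) q r) : ℝ)⁻¹ *
    omd g δ t (BB g i q r F G) r (rcof (z g i) (N g) (kc g q) r q) *
    ((rst g δ t (BB g i q r F G) q (rcof (z g i) (N g) (kc g q) q r) : ℝ) *
      rst g δ t (BB g i q r F G) r (rcof (z g i) (N g) (kc g q) r q)) ^ (-(5 / 12) : ℝ)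

theorem rowW_nonneg {δ : ℕ → ℕ → ℝ} (hδ : Om δ) (t i q r : ℕ) (F G : ℚ) :
    0 ≤ rowW g δ t i q r F G := by
  unfold rowW
  have h1 := omw_nonneg (g := g) hδ t (BB g i q r F G) q (rcof (z g i) (N g) (kc g q) q r)
  have h2 := omd_nonneg (g := g) hδ t (BB g i q r F G) r (rcof (z g i) (N g) (kc g q) r q)
  positivity

/-- **[RowX] for one configuration**: rows for fixed `q`, `i`, deficit `m` of the partners and
fractions -/
def RowXg (g : Cfg) (δ : ℕ → ℕ → ℝ) (C : ℝ) : Prop :=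
  ∀ q ∈ V1 g, ∀ i : ℕ, 1 ≤ i → i ≤ nst g → ∀ (t m : ℕ) (F G : ℚ) (R : Finset ℕ), zs g ≤ t →
    R ⊆ V1 g → (Real.log (CF.KK g i q F)) ^ (3 / 2 : ℝ) ≤ t →
    (∀ j, i ≤ j → j ≤ nst g → t < z g j → ∃ b, st g j q = some (F, b)) →
    (∀ r ∈ R, M g i r = m ∧ (Real.log (CF.KK g i r G)) ^ (3 / 2 : ℝ) ≤ t ∧
      (∀ j, i ≤ j → j ≤ nst g → t < z g j → ∃ b, st g j r = some (G, b)) ∧
      ∃ n : ℤ, PD g i t q r n F G ∧ Kd g δ q r n ≠ 0) →
    ∑ r ∈ R, rowW g δ t i q r F G ≤ Real.exp (C + C * (t : ℝ) ^ (7 / 12 : ℝ) +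
      C * (Real.log ((((M g i q : ℚ) * F).den : ℝ) * (((m : ℚ) * G).den : ℝ))) ^ (7 / 12 : ℝ))

/-- **[RowX]** -/
def RowX (δ : Cfg → ℕ → ℕ → ℝ) : Prop :=
  Ev (fun K Js => ∃ C X₀ : ℝ, 0 ≤ C ∧ ∀ g : Cfg, g.K = K → g.Js = Js → X₀ ≤ g.X →
    g.V ⊆ Icc 1 (N g) → RowXg g (δ g) C)

open Classical in
/-- **[ROW1]**: the one-sided row of class F at one stage -/
def Row1 (δ : Cfg → ℕ → ℕ → ℝ) : Prop :=
  Ev (fun K Js => ∃ C X₀ : ℝ, 0 ≤ C ∧ ∀ g : Cfg, g.K = K → g.Js = Js → X₀ ≤ g.X →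
    g.V ⊆ Icc 1 (N g) → ∀ q ∈ V1 g, ∀ i, 1 ≤ i → i ≤ nst g → ∀ κ : ℝ, 2 ≤ κ →
    ∑ r ∈ (V1 g).erase q, f g q * f g r / Dl g q r *
      ∑ n ∈ (Sh g q r).filter (fun n => TAfQ g (δ g) κ i q r n), Kd g (δ g) q r n ≤
      C * κ ^ (-(1 / 1000) : ℝ) * f g q)

/-! ### One term -/

theorem TP_le_one' {δ : ℕ → ℕ → ℝ} (hδ : Om δ) (x q r : ℕ) (n : ℤ) : TP g δ x q r n ≤ 1 := by
  classical
  unfold TP
  refine prod_le_one (fun p hp => ?_) fun p hp => ?_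
  · exact (lc_bounds hδ q r n (Nat.prime_of_mem_primeFactors
      (mem_inter.1 (mem_filter.1 hp).1).1)).1
  · have hpp := Nat.prime_of_mem_primeFactors (mem_inter.1 (mem_filter.1 hp).1).1
    exact (lc_bounds hδ q r n hpp).2.1.trans (one_sub_dq_pos hδ q hpp).2.2

/-- the data of a triple of the class -/
theorem TAfQ.pd (hJ : JsOK g.K g.Js) (hX : g.Js ≤ g.X) {δ : ℕ → ℕ → ℝ} {κ : ℝ} (hκ : 0 ≤ κ)
    {i q r : ℕ} {n : ℤ} (hq : q ∈ g.V) (hr : r ∈ g.V) (i1 : 1 ≤ i) (i2 : i ≤ nst g)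
    (sh : n ∈ Sh g q r) (h : TAfQ g δ κ i q r n) : ∃ F G : ℚ,
      PD g i (yK (zs g) (κ ^ 2)) q r n F G ∧ KS g i q r F G < κ ^ 2 ∧
      (∀ j, i ≤ j → j ≤ nst g → yK (zs g) (κ ^ 2) < z g j →
        (∃ c, st g j q = some (F, c)) ∧ ∃ c, st g j r = some (G, c)) ∧
      κ ^ (1 / 8 : ℝ) ≤ rst g δ (yK (zs g) (κ ^ 2)) (BB g i q r F G) q
        (rcof (z g i) (N g) (kc g q) q r) ∧
      rst g δ (yK (zs g) (κ ^ 2)) (BB g i q r F G) r (rcof (z g i) (N g) (kc g q) r q) ≤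
        rst g δ (yK (zs g) (κ ^ 2)) (BB g i q r F G) q (rcof (z g i) (N g) (kc g q) q r) := by
  obtain ⟨h1, -, F, G, h2, h3, h4, h6, h7, h5, h8⟩ := h
  have hKS1 : 1 ≤ KS g i q r F G := (one_le_KK' _ _ _).trans (le_max_left _ _)
  have hyy : yK (zs g) (KS g i q r F G) ≤ yK (zs g) (κ ^ 2) := yK_mono' _ hKS1 h7.le
  refine ⟨F, G, PD.of_stage hJ hX hq hr i1 i2 h1 sh h2 h3 (le_max_left _ _)
    (fun s hs1 hs2 hs3 => h4 s hs1 hs2 (lt_of_le_of_lt hyy hs3)), h7,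
    (fun s hs1 hs2 hs3 => h4 s hs1 hs2 (lt_of_le_of_lt hyy hs3)), ?_, h8⟩
  have h9 : κ ^ (1 / 8 : ℝ) ≤ (KS g i q r F G) ^ (1 / 8 : ℝ) :=
    Real.rpow_le_rpow hκ h6 (by norm_num)
  refine (h9.trans h5).trans ?_
  unfold mrs
  refine max_le ?_ ?_
  · exact_mod_cast rst_mono g δ hyy _ _ _
  · exact_mod_cast (rst_mono g δ hyy _ _ _).trans h8

/-- the radius of the partner -/
theorem PD.rho_le (hJ : JsOK g.K g.Js) (hX : g.Js ≤ g.X) (hX1 : 1 ≤ g.X)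
    (hV : g.V ⊆ Icc 1 (N g)) {δ : ℕ → ℕ → ℝ} (hδ : DRho g δ) {i t q r : ℕ} {n : ℤ} {F G : ℚ}
    (h : SK.PD g i t q r n F G)
    (hr : rst g δ t (BB g i q r F G) r (rcof (z g i) (N g) (kc g q) r q) ≤
        rst g δ t (BB g i q r F G) q (rcof (z g i) (N g) (kc g q) q r)) :
    PA.rho (dat g) i r ≤ 2 * g.K.P.ρ0 := by
  have hz := zs_le_z hJ hX i
  have hρ0 := g.K.P.ρ0_pos
  obtain ⟨-, -, -, ha0, hb0⟩ := clean_cofac hV hz h.hq h.hr h.ta.2.2.1
  set a := rcof (z g i) (N g) (kc g q) q r with ha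
  set b := rcof (z g i) (N g) (kc g q) r q with hb
  set B := BB g i q r F G with hB
  by_cases hU : (UO g δ t B r b).Nonempty
  · obtain ⟨p, hp⟩ := hU
    obtain ⟨h1, h2, h3, h4, h5⟩ := mem_UO.1 hp
    have h6 : p ∈ Lks g (z g i) r q (-n) := h.leak_r hJ hX hV hp
    exact (hδ r h.hr i p h4 (mem_Lks.1 h6).2.1 h5).trans (by linarith)
  · rw [not_nonempty_iff_eq_empty] at hU
    have h1 : omt g δ t B r b = 1 := by
      rw [omt_eq, hU]
      unfold pt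
      rw [prod_empty]
    have h2 : rst g δ t B r b = b := by
      have := omt_mul_rst g δ t B r hb0.ne'
      rwa [h1, one_mul] at this
    have h3 : rst g δ t B q a ≤ a := by
      have h4 := omt_mul_rst g δ t B q ha0.ne'
      calc rst g δ t B q a ≤ omt g δ t B q a * rst g δ t B q a :=
            Nat.le_mul_of_pos_left _ (omt_pos g δ t B q a)
        _ = a := h4
    have h4 : b ≤ a := by
      rw [h2] at hr
      exact hr.trans h3
    have h5 := rho_pair hX1 hV hz h.hq h.hr h.ta.2.2.1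
    rw [← ha, ← hb] at h5
    have h6 : PA.rho (dat g) i r ≤ 2 * PA.rho (dat g) i q := by
      have p1 : 0 < (M g i q : ℝ) * ψ g q :=
        mul_pos (by exact_mod_cast M_pos g i q) (ψ_pos g q)
      have ar : (0 : ℝ) < a := by exact_mod_cast ha0
      have br : (b : ℝ) ≤ a := by exact_mod_cast h4
      have h7 : (M g i r : ℝ) * ψ g r * a ≤ (M g i q : ℝ) * ψ g q * a := by
        rw [h5]
        exact mul_le_mul_of_nonneg_left br p1.le
      have h8 : (M g i r : ℝ) * ψ g r ≤ (M g i q : ℝ) * ψ g q := le_of_mul_le_mul_right h7 ar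
      exact (rho_le_M i r).trans (h8.trans (M_le_rho i q))
    obtain ⟨F', b1, G', b2, -, -, -, h8⟩ := start_cand h.i1 h.ta
    rcases h8 with h8 | h8
    · have := h8.1
      linarith
    · have := h8.1
      linarith

/-- **one term of the row** -/
theorem term_row (hρ : Real.exp 1 ≤ g.K.P.ρ0 ^ (-g.K.P.c0)) (hJ : JsOK g.K g.Js)
    (hX : g.Js ≤ g.X) (hV : g.V ⊆ Icc 1 (N g)) {δ : ℕ → ℕ → ℝ} (hδ : Om δ) {i t q r : ℕ}
    {n : ℤ} {F G : ℚ} (h : SK.PD g i t q r n F G)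
    (hq : q ∈ V1 g) (hr : r ∈ V1 g) (hD : Dl g q r ≤ z g i) {κ : ℝ} (hκ1 : 1 ≤ κ)
    (h1 : κ ^ (1 / 8 : ℝ) ≤ rst g δ t (BB g i q r F G) q (rcof (z g i) (N g) (kc g q) q r))
    (h2 : rst g δ t (BB g i q r F G) r (rcof (z g i) (N g) (kc g q) r q) ≤
        rst g δ t (BB g i q r F G) q (rcof (z g i) (N g) (kc g q) q r)) :
    f g q * f g r / Dl g q r * Kd g δ q r n ≤ Real.exp 354 * 65536 * κ ^ (-(1 / 240) : ℝ) *
      f g q * (Wt g i r * rowW g δ t i q r F G) := by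
  have hz := zs_le_z hJ hX i
  have hκ : 0 < κ := by linarith
  obtain ⟨-, -, -, ha0, hb0⟩ := clean_cofac hV hz h.hq h.hr h.ta.2.2.1
  refine (h.term_q hρ hJ hX hV hδ hq hr hD).trans ?_
  unfold rowW
  set a := rcof (z g i) (N g) (kc g q) q r with ha
  set b := rcof (z g i) (N g) (kc g q) r q with hb
  set B := BB g i q r F G with hB
  have u0 : 0 < rst g δ t B q a := rst_pos g δ t B q ha0
  have v0 : 0 < rst g δ t B r b := rst_pos g δ t B r hb0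
  set u : ℝ := (rst g δ t B q a : ℝ) with hu
  set v : ℝ := (rst g δ t B r b : ℝ) with hv
  have u1 : (1 : ℝ) ≤ u := by rw [hu]; exact_mod_cast u0
  have v1 : (1 : ℝ) ≤ v := by rw [hv]; exact_mod_cast v0
  have hvu : v ≤ u := by rw [hu, hv]; exact_mod_cast h2
  have hup : 0 < u := by linarith
  have hvp : 0 < v := by linarith
  set ow := omw g δ t B q a with how
  set om := (omt g δ t B q a : ℝ)⁻¹ with hom
  set od' := omd g δ t B r b with hod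
  have p1 : 0 ≤ ow := omw_nonneg hδ t B q a
  have p2 : 0 ≤ om := by rw [hom]; positivity
  have p3 : 0 ≤ od' := omd_nonneg hδ t B r b
  have p4 := f_nonneg g q
  have p5 := Wt_nonneg (g := g) i r
  have p6 := TP_nonneg (g := g) hδ (z g i) q r n
  have p7 := TP_le_one' (g := g) hδ (z g i) q r n
  -- the exponents
  have key : u ^ (-(9 / 10) : ℝ) ≤ κ ^ (-(1 / 240) : ℝ) * (u * v) ^ (-(5 / 12) : ℝ) := by
    have e1 : u ^ (-(9 / 10) : ℝ) = u ^ (-(1 / 15) : ℝ) * u ^ (-(5 / 6) : ℝ) := by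
      rw [← Real.rpow_add hup]
      norm_num
    have e2 : u ^ (-(5 / 6) : ℝ) ≤ (u * v) ^ (-(5 / 12) : ℝ) := by
      have e3 : u ^ (-(5 / 6) : ℝ) = (u * u) ^ (-(5 / 12) : ℝ) := by
        rw [Real.mul_rpow hup.le hup.le, ← Real.rpow_add hup]
        norm_num
      rw [e3]
      exact Real.rpow_le_rpow_of_nonpos (mul_pos hup hvp)
        (mul_le_mul_of_nonneg_left hvu hup.le) (by norm_num)
    have e4 : u ^ (-(1 / 15) : ℝ) ≤ κ ^ (-(1 / 240) : ℝ) := by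
      calc u ^ (-(1 / 15) : ℝ) ≤ (κ ^ (1 / 8 : ℝ)) ^ (-(1 / 15) : ℝ) :=
            Real.rpow_le_rpow_of_nonpos (Real.rpow_pos_of_pos hκ _) h1 (by norm_num)
        _ = κ ^ (-(1 / 120) : ℝ) := by
            rw [← Real.rpow_mul hκ.le]
            norm_num
        _ ≤ κ ^ (-(1 / 240) : ℝ) :=
            Real.rpow_le_rpow_of_exponent_le hκ1 (by norm_num)
    rw [e1]
    exact mul_le_mul e4 e2 (Real.rpow_nonneg hup.le _) (Real.rpow_nonneg hκ.le _)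
  have hnn : 0 ≤ f g q * Wt g i r * (ow * om) := by positivity
  calc Real.exp 354 * 65536 * (f g q * Wt g i r * (ow * om) * u ^ (-(9 / 10) : ℝ) * od' *
        TP g δ (z g i) q r n)
      ≤ Real.exp 354 * 65536 * (f g q * Wt g i r * (ow * om) *
        (κ ^ (-(1 / 240) : ℝ) * (u * v) ^ (-(5 / 12) : ℝ)) * od' * 1) := by
        have q1 : 0 ≤ u ^ (-(9 / 10) : ℝ) := Real.rpow_nonneg hup.le _
        gcongr
    _ = _ := by ring

/-! ### Numbers -/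

/-- sublinear powers -/
theorem pow_le_lin {A a ε : ℝ} (hA : 0 ≤ A) (ha : 0 < a) (ha1 : a < 1) (hε : 0 < ε) :
    ∃ D : ℝ, 0 ≤ D ∧ ∀ x : ℝ, 0 ≤ x → A * x ^ a ≤ ε * x + D := by
  have h1 : 0 < 1 - a := by linarith
  set x₀ : ℝ := (A / ε) ^ (1 / (1 - a)) with hx₀
  have hx₀0 : 0 ≤ x₀ := Real.rpow_nonneg (div_nonneg hA hε.le) _
  refine ⟨A * x₀ ^ a, mul_nonneg hA (Real.rpow_nonneg hx₀0 _), fun x hx => ?_⟩
  rcases le_total x x₀ with h | h
  · have h2 : x ^ a ≤ x₀ ^ a := Real.rpow_le_rpow hx h ha.le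
    have h3 : A * x ^ a ≤ A * x₀ ^ a := mul_le_mul_of_nonneg_left h2 hA
    have h4 : 0 ≤ ε * x := by positivity
    linarith
  · rcases hx.eq_or_lt with h0 | h0
    · rw [← h0, Real.zero_rpow ha.ne', mul_zero, mul_zero, zero_add]
      exact mul_nonneg hA (Real.rpow_nonneg hx₀0 _)
    · have h2 : x₀ ^ (1 - a) ≤ x ^ (1 - a) := Real.rpow_le_rpow hx₀0 h h1.le
      have h3 : x₀ ^ (1 - a) = A / ε := by
        rw [hx₀, ← Real.rpow_mul (div_nonneg hA hε.le)]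
        rw [show 1 / (1 - a) * (1 - a) = 1 by field_simp, Real.rpow_one]
      rw [h3, div_le_iff₀ hε] at h2
      have h4 : 0 < x ^ a := Real.rpow_pos_of_pos h0 _
      have h5 : x ^ (1 - a) * x ^ a = x := by
        rw [← Real.rpow_add h0]
        norm_num
      have h6 : A * x ^ a ≤ ε * x := by
        calc A * x ^ a ≤ x ^ (1 - a) * ε * x ^ a := mul_le_mul_of_nonneg_right h2 h4.le
          _ = ε * (x ^ (1 - a) * x ^ a) := by ring
          _ = ε * x := by rw [h5]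
      have h7 : 0 ≤ A * x₀ ^ a := mul_nonneg hA (Real.rpow_nonneg hx₀0 _)
      linarith

/-- the bound of [RowX] at the scale `κ` is `κ ^ (1 / 1000)` up to a constant -/
theorem exp_bound {C : ℝ} (hC : 0 ≤ C) (zs₀ : ℕ) : ∃ D : ℝ, 0 < D ∧ ∀ κ : ℝ, 2 ≤ κ →
    ∀ B : ℝ, 1 ≤ B → B ≤ κ ^ 4 →
    Real.exp (C + C * ((yK zs₀ (κ ^ 2) : ℕ) : ℝ) ^ (7 / 12 : ℝ) +
      C * (Real.log B) ^ (7 / 12 : ℝ)) ≤ D * κ ^ (1 / 1000 : ℝ) := by
  obtain ⟨D1, hD1, h1⟩ := pow_le_lin (A := C * 2) (a := 7 / 8) (ε := 1 / 4000)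
    (by positivity) (by norm_num) (by norm_num) (by norm_num)
  obtain ⟨D2, hD2, h2⟩ := pow_le_lin (A := C) (a := 7 / 12) (ε := 1 / 8000)
    hC (by norm_num) (by norm_num) (by norm_num)
  refine ⟨Real.exp (C + C * ((zs₀ : ℝ) + 1) + D1 + D2), Real.exp_pos _, fun κ hκ B hB1 hB => ?_⟩
  have hκ0 : 0 < κ := by linarith
  have hL : 0 ≤ Real.log κ := Real.log_nonneg (by linarith)
  set L := Real.log κ with hLd
  have e1 : κ ^ (1 / 1000 : ℝ) = Real.exp (L * (1 / 1000)) := by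
    rw [Real.rpow_def_of_pos hκ0]
  rw [e1, ← Real.exp_add]
  refine Real.exp_le_exp.2 ?_
  -- the logarithm of `B`
  have h3 : Real.log B ≤ 4 * L := by
    calc Real.log B ≤ Real.log (κ ^ 4) := Real.log_le_log (by linarith) hB
      _ = 4 * L := by rw [Real.log_pow, hLd]; norm_num
  have h3' : 0 ≤ Real.log B := Real.log_nonneg hB1
  have h4 : C * (Real.log B) ^ (7 / 12 : ℝ) ≤ 1 / 8000 * (4 * L) + D2 := by
    have := h2 (Real.log B) h3'
    linarith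
  -- the threshold
  have h5 : Real.log (κ ^ 2) = 2 * L := by rw [Real.log_pow, hLd]; norm_num
  have h6 : ((yK zs₀ (κ ^ 2) : ℕ) : ℝ) ≤ ((zs₀ : ℝ) + 1) + (2 * L) ^ (3 / 2 : ℝ) := by
    have h7 : 0 ≤ (2 * L) ^ (3 / 2 : ℝ) := Real.rpow_nonneg (by linarith) _
    unfold yK
    rw [h5]
    push_cast
    refine max_le (by linarith) ?_
    have := (Nat.ceil_lt_add_one h7).le
    have : (0 : ℝ) ≤ zs₀ := Nat.cast_nonneg _
    linarith
  have h7 : ((yK zs₀ (κ ^ 2) : ℕ) : ℝ) ^ (7 / 12 : ℝ) ≤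
      ((zs₀ : ℝ) + 1) + 2 * L ^ (7 / 8 : ℝ) := by
    have p1 : (0 : ℝ) ≤ (zs₀ : ℝ) + 1 := by positivity
    have p2 : 0 ≤ (2 * L) ^ (3 / 2 : ℝ) := Real.rpow_nonneg (by linarith) _
    calc ((yK zs₀ (κ ^ 2) : ℕ) : ℝ) ^ (7 / 12 : ℝ)
        ≤ (((zs₀ : ℝ) + 1) + (2 * L) ^ (3 / 2 : ℝ)) ^ (7 / 12 : ℝ) :=
          Real.rpow_le_rpow (Nat.cast_nonneg _) h6 (by norm_num)
      _ ≤ ((zs₀ : ℝ) + 1) ^ (7 / 12 : ℝ) + ((2 * L) ^ (3 / 2 : ℝ)) ^ (7 / 12 : ℝ) :=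
          Real.rpow_add_le_add_rpow p1 p2 (by norm_num) (by norm_num)
      _ ≤ ((zs₀ : ℝ) + 1) + 2 * L ^ (7 / 8 : ℝ) := by
          refine add_le_add ?_ ?_
          · calc ((zs₀ : ℝ) + 1) ^ (7 / 12 : ℝ) ≤ ((zs₀ : ℝ) + 1) ^ (1 : ℝ) :=
                  Real.rpow_le_rpow_of_exponent_le (by
                    have : (0 : ℝ) ≤ zs₀ := Nat.cast_nonneg _
                    linarith) (by norm_num)
              _ = (zs₀ : ℝ) + 1 := Real.rpow_one _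
          · rw [← Real.rpow_mul (by linarith), Real.mul_rpow (by norm_num) hL]
            have h8 : (3 / 2 : ℝ) * (7 / 12) = 7 / 8 := by norm_num
            rw [h8]
            refine mul_le_mul_of_nonneg_right ?_ (Real.rpow_nonneg hL _)
            calc (2 : ℝ) ^ (7 / 8 : ℝ) ≤ 2 ^ (1 : ℝ) :=
                  Real.rpow_le_rpow_of_exponent_le (by norm_num) (by norm_num)
              _ = 2 := Real.rpow_one 2
  have h8 : C * ((yK zs₀ (κ ^ 2) : ℕ) : ℝ) ^ (7 / 12 : ℝ) ≤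
      C * ((zs₀ : ℝ) + 1) + (1 / 4000 * L + D1) := by
    have h9 := mul_le_mul_of_nonneg_left h7 hC
    have h10 := h1 L hL
    calc C * ((yK zs₀ (κ ^ 2) : ℕ) : ℝ) ^ (7 / 12 : ℝ) ≤
          C * (((zs₀ : ℝ) + 1) + 2 * L ^ (7 / 8 : ℝ)) := h9
      _ = C * ((zs₀ : ℝ) + 1) + C * 2 * L ^ (7 / 8 : ℝ) := by ring
      _ ≤ _ := by linarith
  linarith

/-! ### The theorem -/

theorem ev_small : Ev (fun K _ => K.P.c0 ≤ 1 / 12 ∧ K.P.ρ0 ≤ 1 / 8192) :=
  ⟨1 / 12, by norm_num, fun c0 hc0 hc0' => ⟨1, one_pos, fun c4 _ _ =>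
    ⟨1 / 8192, by norm_num, fun ρ0 _ hρ' => ⟨0, fun C1 _ => ⟨0, fun C2 _ => ⟨0, fun Js _ h =>
      ⟨hc0', hρ'⟩⟩⟩⟩⟩⟩⟩

open Classical in
/-- **The row at one stage, for one configuration.** -/
theorem row1_core {C1 : ℝ} (hC1 : 0 ≤ C1) (zs₀ : ℕ) : ∃ C : ℝ, 0 ≤ C ∧ ∀ g : Cfg,
    zs g = zs₀ → Real.exp 1 ≤ g.K.P.ρ0 ^ (-g.K.P.c0) → g.K.P.c0 ≤ 1 / 12 →
    g.K.P.ρ0 ≤ 1 / 8192 → JsOK g.K g.Js → g.Js ≤ g.X → 1 ≤ g.X → g.V ⊆ Icc 1 (N g) →
    ∀ δ : ℕ → ℕ → ℝ, Om δ → DRho g δ → RowXg g δ C1 →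
    ∀ q ∈ V1 g, ∀ i, 1 ≤ i → i ≤ nst g → ∀ κ : ℝ, 2 ≤ κ →
    ∑ r ∈ (V1 g).erase q, f g q * f g r / Dl g q r *
      ∑ n ∈ (Sh g q r).filter (fun n => TAfQ g δ κ i q r n), Kd g δ q r n ≤
      C * κ ^ (-(1 / 1000) : ℝ) * f g q := by
  obtain ⟨C2, hC2, hfr⟩ := Vale.P028.NR.row_fractions (ε := 1 / 1000) (by norm_num)
  obtain ⟨D, hD, hexp⟩ := exp_bound hC1 zs₀
  refine ⟨Real.exp 354 * 65536 * (C2 * D), by positivity, ?_⟩
  intro g hzs hρ hc0 hρ0 hJ hX hX1 hV δ hδ hδρ hRow q hq i hi1 hi2 κ hκ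
  have hκ0 : 0 < κ := by linarith
  have hκ1 : 1 ≤ κ := by linarith
  have hqV : q ∈ g.V := (mem_filter.1 (mem_filter.1 hq).1).1
  have hz := zs_le_z hJ hX i
  set t := yK (zs g) (κ ^ 2) with ht
  set R := ((V1 g).erase q).filter (fun r => ∃ n ∈ Sh g q r, TAfQ g δ κ i q r n ∧
    Kd g δ q r n ≠ 0) with hR
  have hRV : ∀ r ∈ R, r ∈ V1 g ∧ r ∈ g.V ∧ r ≠ q := by
    intro r hr
    have h1 := (mem_filter.1 hr).1
    have h2 := mem_erase.1 h1
    exact ⟨h2.2, (mem_filter.1 (mem_filter.1 h2.2).1).1, h2.1⟩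
  -- the data of the partners
  have hdat : ∀ r : ℕ, ∃ (n : ℤ) (F G : ℚ), r ∈ R → n ∈ Sh g q r ∧ TAfQ g δ κ i q r n ∧
      Kd g δ q r n ≠ 0 ∧ SK.PD g i t q r n F G ∧ KS g i q r F G < κ ^ 2 ∧
      (∀ j, i ≤ j → j ≤ nst g → t < z g j →
        (∃ c, st g j q = some (F, c)) ∧ ∃ c, st g j r = some (G, c)) ∧
      κ ^ (1 / 8 : ℝ) ≤ rst g δ t (BB g i q r F G) q (rcof (z g i) (N g) (kc g q) q r) ∧
      rst g δ t (BB g i q r F G) r (rcof (z g i) (N g) (kc g q) r q) ≤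
        rst g δ t (BB g i q r F G) q (rcof (z g i) (N g) (kc g q) q r) := by
    intro r
    by_cases hr : r ∈ R
    · obtain ⟨n, hn, hT, hK⟩ := (mem_filter.1 hr).2
      obtain ⟨F, G, h1, h2, h3, h4, h5⟩ := TAfQ.pd hJ hX hκ0.le hqV (hRV r hr).2.1 hi1 hi2 hn hT
      exact ⟨n, F, G, fun _ => ⟨hn, hT, hK, h1, h2, h3, h4, h5⟩⟩
    · exact ⟨0, 0, 0, fun h => absurd h hr⟩
  choose nn FF GG hd using hdat
  -- the fraction of `q`
  have hFF : ∀ r ∈ R, ∀ r' ∈ R, FF r = FF r' := by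
    intro r hr r' hr'
    obtain ⟨b, h1⟩ := (hd r hr).2.2.2.1.fq
    obtain ⟨b', h2⟩ := (hd r' hr').2.2.2.1.fq
    rw [h1, Option.some.injEq, Prod.mk.injEq] at h2
    exact h2.1
  -- at most one sheet
  have hone : ∀ r ∈ R, ∀ n ∈ Sh g q r, TAfQ g δ κ i q r n → n = nn r := by
    intro r hr n hn hT
    obtain ⟨F, G, h1, -⟩ := TAfQ.pd hJ hX hκ0.le hqV (hRV r hr).2.1 hi1 hi2 hn hT
    have h2 := (hd r hr).2.2.2.1
    have h3 := h1.rel
    have h4 := h2.rel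
    obtain ⟨b1, e1⟩ := h1.fq
    obtain ⟨b2, e2⟩ := h2.fq
    obtain ⟨b3, e3⟩ := h1.fr
    obtain ⟨b4, e4⟩ := h2.fr
    rw [e1, Option.some.injEq, Prod.mk.injEq] at e2
    rw [e3, Option.some.injEq, Prod.mk.injEq] at e4
    rw [e2.1, e4.1] at h3
    have h5 : (n : ℚ) = (nn r : ℚ) := by linarith
    exact_mod_cast h5
  -- one term
  have hterm : ∀ r ∈ (V1 g).erase q, f g q * f g r / Dl g q r *
      ∑ n ∈ (Sh g q r).filter (fun n => TAfQ g δ κ i q r n), Kd g δ q r n ≤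
      if r ∈ R then Real.exp 354 * 65536 * κ ^ (-(1 / 240) : ℝ) * f g q *
        (Wt g i r * rowW g δ t i q r (FF r) (GG r)) else 0 := by
    intro r hr
    by_cases hrR : r ∈ R
    · rw [if_pos hrR]
      obtain ⟨h1, h2, h3, h4, h5, h6, h7, h8⟩ := hd r hrR
      have e1 : ∑ n ∈ (Sh g q r).filter (fun n => TAfQ g δ κ i q r n), Kd g δ q r n =
          Kd g δ q r (nn r) := by
        have e2 : (Sh g q r).filter (fun n => TAfQ g δ κ i q r n) = {nn r} := by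
          ext n
          rw [mem_filter, mem_singleton]
          constructor
          · rintro ⟨h9, h10⟩
            exact hone r hrR n h9 h10
          · rintro rfl
            exact ⟨h1, h2⟩
        rw [e2, sum_singleton]
      rw [e1]
      exact term_row hρ hJ hX hV hδ h4 hq (hRV r hrR).1 h2.2.1 hκ1 h7 h8
    · rw [if_neg hrR]
      have e1 : ∑ n ∈ (Sh g q r).filter (fun n => TAfQ g δ κ i q r n), Kd g δ q r n = 0 := by
        refine sum_eq_zero fun n hn => ?_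
        by_contra hne
        obtain ⟨h1, h2⟩ := mem_filter.1 hn
        exact hrR (mem_filter.2 ⟨hr, n, h1, h2, hne⟩)
      rw [e1, mul_zero]
  refine (sum_le_sum hterm).trans ?_
  rw [← sum_filter, ← mul_sum]
  have hfilter : ((V1 g).erase q).filter (fun r => r ∈ R) = R := by
    ext r
    rw [mem_filter]
    exact ⟨fun h => h.2, fun h => ⟨(mem_filter.1 h).1, h⟩⟩
  rw [hfilter]
  -- the row
  rcases R.eq_empty_or_nonempty with hE | ⟨r0, hr0⟩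
  · rw [hE, sum_empty, mul_zero]
    have := f_nonneg g q
    positivity
  set F := FF r0 with hF
  have hFr : ∀ r ∈ R, FF r = F := fun r hr => hFF r hr r0 hr0
  set Q := xc (PO (z g i) (N g)) (kc g q) with hQ
  have hQ0 : 0 < Q := xcPO_pos _ _ _
  have hWt : ∀ r ∈ R, Wt g i r = wdv Q (M g i r) := by
    intro r hr
    obtain ⟨-, -, -, h4, -⟩ := hd r hr
    exact (Wt_cell (clean_cross hV hz hqV h4.hr h4.ta.2.2.1).1).symm
  have hψ : ∀ r ∈ R, ψ g r ≤ 1 := by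
    intro r hr
    have h1 := mem_Icc.1 (hV (hRV r hr).2.1)
    have h2 : (r : ℝ) ≤ g.X := by
      have h3 : (N g : ℝ) ≤ g.X := Nat.floor_le (by linarith)
      have h4 : (r : ℝ) ≤ N g := by exact_mod_cast h1.2
      linarith
    unfold ψ
    rw [max_eq_right hX1, div_le_one (by linarith)]
    push_cast
    exact max_le hX1 h2
  have hres := hfr g hc0 hρ0 i Q R GG (fun r => rowW g δ t i q r (FF r) (GG r))
    (D * κ ^ (1 / 1000 : ℝ)) (κ ^ 2) hQ0 (by nlinarith) (by positivity)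
    (fun r _ => rowW_nonneg hδ _ _ _ _ _ _) hψ (fun r hr => (hd r hr).2.2.2.1.fr)
    (fun r hr => by
      obtain ⟨-, -, -, h4, -⟩ := hd r hr
      rw [M_eq_od hV hz hqV h4.hr h4.ta.2.2.1]
      exact od_dvd _ _ _ _)
    (fun r hr => ((le_max_right _ _).trans_lt (hd r hr).2.2.2.2.1).le)
    (fun r hr => by
      obtain ⟨-, -, -, h4, -, -, -, h8⟩ := hd r hr
      have h9 := PD.rho_le hJ hX hX1 hV hδρ h4 h8
      have h10 : (1 : ℝ) ≤ κ ^ 2 := one_le_pow₀ hκ1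
      linarith)
    (fun m G' => by
      set R' := R.filter (fun r => M g i r = m ∧ GG r = G') with hR'
      have hR'R : ∀ r ∈ R', r ∈ R ∧ M g i r = m ∧ GG r = G' := fun r hr => mem_filter.1 hr
      rcases R'.eq_empty_or_nonempty with hE' | ⟨r1, hr1⟩
      · rw [hE', sum_empty]
        positivity
      have hF1 : ∀ r ∈ R', rowW g δ t i q r (FF r) (GG r) = rowW g δ t i q r F G' := by
        intro r hr
        rw [hFr r (hR'R r hr).1, (hR'R r hr).2.2]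
      rw [sum_congr rfl hF1]
      have hpd : ∀ r ∈ R', SK.PD g i t q r (nn r) F G' := by
        intro r hr
        have h1 := (hd r (hR'R r hr).1).2.2.2.1
        rwa [hFr r (hR'R r hr).1, (hR'R r hr).2.2] at h1
      have hKS : ∀ r ∈ R', KS g i q r F G' < κ ^ 2 := by
        intro r hr
        have h1 := (hd r (hR'R r hr).1).2.2.2.2.1
        rwa [hFr r (hR'R r hr).1, (hR'R r hr).2.2] at h1
      have hlog : ∀ r ∈ R', (Real.log (CF.KK g i q F)) ^ (3 / 2 : ℝ) ≤ t ∧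
          (Real.log (CF.KK g i r G')) ^ (3 / 2 : ℝ) ≤ t := by
        intro r hr
        have hKS1 : 1 ≤ KS g i q r F G' := (one_le_KK' _ _ _).trans (le_max_left _ _)
        exact SK.PD.log_of (yK_mono' _ hKS1 (hKS r hr).le)
      have hsub : R' ⊆ V1 g := fun r hr => (hRV r (hR'R r hr).1).1
      have hst : ∀ r ∈ R', ∀ j, i ≤ j → j ≤ nst g → t < z g j →
          (∃ c, st g j q = some (F, c)) ∧ ∃ c, st g j r = some (G', c) := by
        intro r hr j h1 h2 h3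
        have h4 := (hd r (hR'R r hr).1).2.2.2.2.2.1 j h1 h2 h3
        rwa [hFr r (hR'R r hr).1, (hR'R r hr).2.2] at h4
      have hrow := hRow q hq i hi1 hi2 t m F G' R' (le_max_left _ _) hsub (hlog r1 hr1).1
        (fun j h1 h2 h3 => (hst r1 hr1 j h1 h2 h3).1)
        (fun r hr => ⟨(hR'R r hr).2.1, (hlog r hr).2, fun j h1 h2 h3 => (hst r hr j h1 h2 h3).2,
          nn r, hpd r hr, (hd r (hR'R r hr).1).2.2.1⟩)
      refine hrow.trans ?_
      -- the denominators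
      have hB1 : ((((M g i q : ℚ) * F).den : ℝ)) ≤ κ ^ 2 := by
        have h1 : ((((M g i q : ℚ) * F).den : ℝ)) ≤ CF.KK g i q F := PA.den_le_Kc _ _ _ _
        exact h1.trans ((le_max_left _ _).trans (hKS r1 hr1).le)
      have hB2 : ((((m : ℚ) * G').den : ℝ)) ≤ κ ^ 2 := by
        have h1 : ((((M g i r1 : ℚ) * G').den : ℝ)) ≤ CF.KK g i r1 G' := PA.den_le_Kc _ _ _ _
        rw [(hR'R r1 hr1).2.1] at h1
        exact h1.trans ((le_max_right _ _).trans (hKS r1 hr1).le)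
      have hB1' : (1 : ℝ) ≤ (((M g i q : ℚ) * F).den : ℝ) := by exact_mod_cast Rat.den_pos _
      have hB2' : (1 : ℝ) ≤ (((m : ℚ) * G').den : ℝ) := by exact_mod_cast Rat.den_pos _
      have h5 := hexp κ hκ ((((M g i q : ℚ) * F).den : ℝ) * (((m : ℚ) * G').den : ℝ))
        (one_le_mul_of_one_le_of_one_le hB1' hB2') (by
          calc (((M g i q : ℚ) * F).den : ℝ) * (((m : ℚ) * G').den : ℝ) ≤ κ ^ 2 * κ ^ 2 :=
                mul_le_mul hB1 hB2 (by positivity) (by positivity)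
            _ = κ ^ 4 := by ring)
      rw [ht, hzs]
      exact h5)
  have e3 : ∑ r ∈ R, Wt g i r * rowW g δ t i q r (FF r) (GG r) =
      ∑ r ∈ R, wdv Q (M g i r) * rowW g δ t i q r (FF r) (GG r) :=
    sum_congr rfl fun r hr => by rw [hWt r hr]
  rw [e3]
  have hf := f_nonneg g q
  calc Real.exp 354 * 65536 * κ ^ (-(1 / 240) : ℝ) * f g q *
        ∑ r ∈ R, wdv Q (M g i r) * rowW g δ t i q r (FF r) (GG r)
      ≤ Real.exp 354 * 65536 * κ ^ (-(1 / 240) : ℝ) * f g q *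
        (C2 * (D * κ ^ (1 / 1000 : ℝ)) * (κ ^ 2) ^ (1 / 1000 : ℝ)) :=
        mul_le_mul_of_nonneg_left hres (by positivity)
    _ = Real.exp 354 * 65536 * (C2 * D) * (κ ^ (-(1 / 240) : ℝ) * κ ^ (1 / 1000 : ℝ) *
        (κ ^ 2) ^ (1 / 1000 : ℝ)) * f g q := by ring
    _ ≤ Real.exp 354 * 65536 * (C2 * D) * κ ^ (-(1 / 1000) : ℝ) * f g q := by
        refine mul_le_mul_of_nonneg_right (mul_le_mul_of_nonneg_left ?_ (by positivity)) hf
        rw [← Real.rpow_natCast, ← Real.rpow_mul hκ0.le, ← Real.rpow_add hκ0,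
          ← Real.rpow_add hκ0]
        exact Real.rpow_le_rpow_of_exponent_le hκ1 (by norm_num)

/-- **[ROW1] from [RowX].** -/
theorem row1_of {δ : Cfg → ℕ → ℕ → ℝ} (hδ : ∀ g, Om (δ g))
    (hρ : ∀ g : Cfg, g.V ⊆ Icc 1 (N g) → DRho g (δ g)) (h : RowX δ) : Row1 δ := by
  unfold Row1
  refine ((h.and ev_small).and (ev_rho_far.and ev_numOK)).mono ?_
  rintro K Js ⟨⟨⟨C1, X₁, hC1, hRow⟩, hc0, hρ0⟩, hfar, hNum⟩
  obtain ⟨C, hC, hcore⟩ := row1_core hC1 ⌊(max 1 Js) ^ K.C2⌋₊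
  refine ⟨C, max (max 1 Js) X₁, hC, ?_⟩
  intro g hK hJs hX hV q hq i hi1 hi2 κ hκ
  rw [max_le_iff, max_le_iff] at hX
  obtain ⟨⟨hX1, hXJ⟩, hX₁⟩ := hX
  have hN : NumOK g.K g.Js := by rw [hK, hJs]; exact hNum
  refine hcore g ?_ (by rw [hK]; exact hfar) (by rw [hK]; exact hc0) (by rw [hK]; exact hρ0)
    hN.js (by rw [hJs]; exact hXJ) hX1 hV (δ g) (hδ g) (hρ g hV) (hRow g hK hJs hX₁ hV) q hq i
    hi1 hi2 κ hκ
  unfold zs
  rw [hK, hJs]

end Vale.P028.SK.NR
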