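import Vale.Agent.P028.MathlibUsed
import Vale.Agent.P028.H758.X2F
attribute [-instance] ProperSMul.toContinuousSMul IsTopologicalTorsor.toContinuousSMul IdemSemiring.toCanonicallyOrderedAdd IdemSemiring.toMulLeftMono IdemSemiring.toMulRightMono AddQuantale.instAddLeftMono AddQuantale.instAddRightMono Quantale.instMulLeftMono Quantale.instMulRightMono FiniteDimensional.rclike_to_real IsScalarTower.complexToReal FiniteDimensional.complexToReal

/-!
# The energy of a class at a cut, restricted to the participants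
-/

namespace Vale.P028.SK

open Finset CF RN

variable {g : Cfg}

open Classical in
/-- the members of `U` in the group with the label `e` -/
noncomputable def GpU (U : Finset ℕ) (x : ℕ) (e : ℕ × ℕ) : Finset ℕ := U.filter (fun q => kyx x q = e)

theorem mem_GpU {U : Finset ℕ} {x q : ℕ} {e : ℕ × ℕ} : q ∈ GpU U x e ↔ q ∈ U ∧ kyx x q = e := by
  classical
  unfold GpU
  exact mem_filter

theorem GpU_sub (U : Finset ℕ) (x : ℕ) (e : ℕ × ℕ) : GpU U x e ⊆ U := fun _ h => (mem_GpU.1 h).1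

open Classical in
/-- the energy between two groups -/
noncomputable def EgU (g : Cfg) (δ : ℕ → ℕ → ℝ) (U : Finset ℕ) (x : ℕ) (T : ℕ → ℕ → ℤ → Prop)
    (e e' : ℕ × ℕ) : ℝ :=
  ∑ q ∈ GpU U x e, ∑ r ∈ (GpU U x e').erase q, f g q * f g r / Dl g q r *
    ∑ n ∈ (Sh g q r).filter (fun n => T q r n), Kd g δ q r n

theorem EgU_nonneg {δ : ℕ → ℕ → ℝ} (hδ : Om δ) (U : Finset ℕ) (x : ℕ) (T : ℕ → ℕ → ℤ → Prop)
    (e e' : ℕ × ℕ) : 0 ≤ EgU g δ U x T e e' := by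
  classical
  unfold EgU
  refine sum_nonneg fun q _ => sum_nonneg fun r _ => ?_
  exact mul_nonneg (div_nonneg (mul_nonneg (f_nonneg g q) (f_nonneg g r)) (Dl_nonneg g q r))
    (sum_nonneg fun n _ => Kd_nonneg g hδ q r n)

/-- **the energy is the sum over the pairs of groups** -/
theorem EnS_groupsU (δ : ℕ → ℕ → ℝ) (U : Finset ℕ) (x : ℕ) (T : ℕ → ℕ → ℤ → Prop) :
    EnS g U δ T = ∑ e ∈ U.image (kyx x), ∑ e' ∈ U.image (kyx x), EgU g δ U x T e e' := by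
  classical
  set P : ℕ → ℕ → ℝ := fun q r => f g q * f g r / Dl g q r *
      ∑ n ∈ (Sh g q r).filter (fun n => T q r n), Kd g δ q r n with hP
  set P' : ℕ → ℕ → ℝ := fun q r => if r = q then 0 else P q r with hP'
  have key : ∀ (S : Finset ℕ) (q : ℕ), ∑ r ∈ S.erase q, P q r = ∑ r ∈ S, P' q r := by
    intro S q
    by_cases hq : q ∈ S
    · rw [← add_sum_erase S _ hq]
      simp only [hP', if_true, zero_add]
      refine sum_congr rfl fun r hr => ?_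
      rw [if_neg (ne_of_mem_erase hr)]
    · rw [erase_eq_of_notMem hq]
      refine sum_congr rfl fun r hr => ?_
      simp only [hP']
      rw [if_neg (fun h : r = q => hq (h ▸ hr))]
  have e1 : EnS g U δ T = ∑ q ∈ U, ∑ r ∈ U, P' q r := by
    change ∑ q ∈ U, ∑ r ∈ U.erase q, P q r = _
    exact sum_congr rfl fun q _ => key _ q
  have e2 : ∀ e e' : ℕ × ℕ, EgU g δ U x T e e' =
      ∑ q ∈ GpU U x e, ∑ r ∈ GpU U x e', P' q r := by
    intro e e'
    unfold EgU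
    exact sum_congr rfl fun q _ => key _ q
  rw [e1, ← sum_fiberwise_of_maps_to (s := U) (t := U.image (kyx x)) (g := kyx x)
    (fun q hq => mem_image_of_mem _ hq)]
  refine sum_congr rfl fun e _ => ?_
  symm
  rw [sum_congr rfl fun e' _ => e2 e e', sum_comm]
  have e3 : ∀ q ∈ GpU U x e, ∑ e' ∈ U.image (kyx x), ∑ r ∈ GpU U x e', P' q r =
      ∑ r ∈ U, P' q r := fun q _ =>
    sum_fiberwise_of_maps_to (s := U) (t := U.image (kyx x)) (g := kyx x)
      (fun q hq => mem_image_of_mem _ hq) _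
  exact sum_congr rfl e3

theorem sum_groupsU (U : Finset ℕ) (x : ℕ) : ∑ e ∈ U.image (kyx x), ∑ q ∈ GpU U x e, f g q =
    ∑ q ∈ U, f g q := by
  classical
  exact sum_fiberwise_of_maps_to (fun q hq => mem_image_of_mem _ hq) _

theorem EgU_ne {δ : ℕ → ℕ → ℝ} {U : Finset ℕ} {x : ℕ} {T : ℕ → ℕ → ℤ → Prop} {e e' : ℕ × ℕ}
    (h : EgU g δ U x T e e' ≠ 0) : ∃ q r : ℕ, ∃ n : ℤ, q ∈ GpU U x e ∧ r ∈ GpU U x e' ∧
      n ∈ Sh g q r ∧ T q r n ∧ Kd g δ q r n ≠ 0 := by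
  classical
  by_contra hcon
  push Not at hcon
  apply h
  unfold EgU
  refine sum_eq_zero fun q hq => sum_eq_zero fun r hr => ?_
  have : ∑ n ∈ (Sh g q r).filter (fun n => T q r n), Kd g δ q r n = 0 :=
    sum_eq_zero fun n hn => hcon q r n hq (mem_of_mem_erase hr) (mem_filter.1 hn).1
      (mem_filter.1 hn).2
  rw [this, mul_zero]

/-- the energy of a class lives on its participants -/
theorem EnS_participants {δ : ℕ → ℕ → ℝ} {S U : Finset ℕ} (hU : U ⊆ S)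
    {T : ℕ → ℕ → ℤ → Prop} (hT : ∀ q r n, T q r n → q ∈ U ∧ r ∈ U) :
    EnS g S δ T ≤ EnS g U δ T := by
  classical
  have hz : ∀ q r : ℕ, ¬ (q ∈ U ∧ r ∈ U) →
      ∑ n ∈ (Sh g q r).filter (fun n => T q r n), Kd g δ q r n = 0 := by
    intro q r hqr
    refine sum_eq_zero fun n hn => ?_
    exact absurd (hT q r n (mem_filter.1 hn).2) hqr
  refine le_of_eq ?_
  change ∑ q ∈ S, ∑ r ∈ S.erase q, _ = ∑ q ∈ U, ∑ r ∈ U.erase q, _
  symm
  refine (sum_subset hU fun q _ hq => ?_).trans (sum_congr rfl fun q _ => ?_)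
  · refine sum_eq_zero fun r _ => ?_
    rw [hz q r fun h => hq h.1, mul_zero]
  · refine sum_subset (erase_subset_erase q hU) fun r hr hr' => ?_
    obtain ⟨h1, h2⟩ := mem_erase.1 hr
    rw [hz q r fun h => hr' (mem_erase.2 ⟨h1, h.2⟩), mul_zero]

/-- **The energy of a class from the group bound, restricted to the participants `U`.** -/
def EnU (c1 c lam C : ℝ) : Prop := ∀ g : Cfg, JsOK g.K g.Js → g.Js ≤ g.X → g.V ⊆ Icc 1 (N g) →
  2 ≤ c1 * zs g → ∀ (δ : ℕ → ℕ → ℝ) (x m : ℕ) (I : Finset ℕ) (T : ℕ → ℕ → ℕ → ℤ → Prop)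
    (U : Finset ℕ),
  Om δ → RD5 g x → ClX g δ x m I T → U ⊆ V1 g → (∀ i ∈ I, ∀ q r n, T i q r n → q ∈ U ∧ r ∈ U) →
  ∀ (A B : ℝ) (β : ℤ → ℝ), 0 ≤ A → (∀ l, 0 ≤ β l) →
  (∀ s : Finset ℤ, ∑ l ∈ s, β l ≤ B) →
  (∀ i ∈ I, GBx g δ c1 c lam A β x m i (T i)) →
  ∑ i ∈ I, EnS g (V1 g) δ (T i) ≤ C * A * B * ∑ q ∈ U, f g q

/-- **THE ENERGY OF A CLASS AT A CUT, restricted to the participants** -/
theorem enU_of_X2 {c1 c lam C : ℝ} (hX2 : X2 c1 (lam * c) C) : EnU c1 c lam C := by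
  classical
  intro g hJ hJX hV hc1 δ x m I T U hδ hR cl hUV hTU A B β hA hβ hB hG
  -- the representatives of the groups
  have hex : ∀ e ∈ U.image (kyx x), ∃ q ∈ U, kyx x q = e := fun e he => by
    obtain ⟨q, hq, hqe⟩ := mem_image.1 he
    exact ⟨q, hq, hqe⟩
  choose! ρ hρ1 hρ2 using hex
  set S := U.image (kyx x) with hS
  have hVq : ∀ {q : ℕ}, q ∈ V1 g → q ∈ g.V := fun hq => (mem_filter.1 (mem_filter.1 hq).1).1
  set nu : ℕ × ℕ → ℕ := fun e => wrd g x (ρ e) with hnu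
  set hl : ℕ × ℕ → ℤ := fun e => (e.2 : ℤ) - Nat.log 2 e.1 with hhl
  set cc : ℕ × ℕ → ℕ := fun e => adS g m (ρ e) with hcc
  set Fm : ℕ × ℕ → ℝ := fun e => ∑ q ∈ GpU U x e, f g q with hFm
  -- the data of a member of a group
  have hmem : ∀ e ∈ S, ∀ q ∈ GpU U x e, q ∈ V1 g ∧ rgh x q = rgh x (ρ e) ∧
      Nat.log 2 q = Nat.log 2 (ρ e) ∧ wrd g x q = nu e ∧ szx x q = hl e ∧
      adS g m q = cc e := by
    intro e he q hq
    obtain ⟨h1', h2⟩ := mem_GpU.1 hq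
    have h1 := hUV h1'
    have h3 := hρ2 e he
    have h4 := h2.trans h3.symm
    have e1 : rgh x q = rgh x (ρ e) := by
      change (kyx x q).1 = (kyx x (ρ e)).1
      rw [h4]
    have e2 : Nat.log 2 q = Nat.log 2 (ρ e) := by
      change (kyx x q).2 = (kyx x (ρ e)).2
      rw [h4]
    refine ⟨h1, e1, e2, wrd_congr e1, ?_, ?_⟩
    · simp only [hhl]
      rw [← h2]
      rfl
    · exact adS_congr fun j hj => hR q (hVq h1) (ρ e) (hVq (hUV (hρ1 e he))) e1 e2 j (cl.cut j hj)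
  have hfam : FamX g x S nu hl Fm := by
    refine ⟨fun e he e' he' h1 h2 => ?_, fun e _ => wrd_pos _ _, fun e he =>
      (wrd_Gd (hVq (hUV (hρ1 e he)))).2, fun e he => Dvx_sum cl.zs_le (hUV (hρ1 e he)), fun e _ =>
      sum_nonneg fun q _ => f_nonneg g q⟩
    have h3 : rgh x (ρ e) = rgh x (ρ e') := wrd_inj h1
    have h4 : e.1 = e'.1 := by
      rw [← hρ2 e he, ← hρ2 e' he']
      exact h3
    have h5 : e.2 = e'.2 := by
      have h6 : (e.2 : ℤ) - Nat.log 2 e.1 = (e'.2 : ℤ) - Nat.log 2 e'.1 := h2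
      rw [h4] at h6
      omega
    exact Prod.ext h4 h5
  have hE := hX2 g x cl.zs_le hc1 S nu hl cc Fm hfam A B β hA hβ hB I
    (fun i e e' => EgU g δ U x (T i) e e') (fun i hi => cl.cut i (cl.lt i hi)) ?_
  · have e1 : ∑ i ∈ I, EnS g U δ (T i) =
        ∑ i ∈ I, ∑ e ∈ S, ∑ e' ∈ S, EgU g δ U x (T i) e e' :=
      sum_congr rfl fun i _ => EnS_groupsU δ U x (T i)
    have e2 : ∑ i ∈ I, EnS g (V1 g) δ (T i) ≤ ∑ i ∈ I, EnS g U δ (T i) :=
      sum_le_sum fun i hi => EnS_participants hUV (hTU i hi)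
    refine e2.trans ?_
    rw [e1]
    refine hE.trans (le_of_eq ?_)
    rw [hFm, hS, sum_groupsU]
  intro i hi e he e' he'
  refine ⟨EgU_nonneg hδ U x (T i) e e', fun hne => ?_⟩
  obtain ⟨q, r, n, hq, hr, hn, hT, hK⟩ := EgU_ne hne
  obtain ⟨hq1, hq2, hq3, hq4, hq5, hq6⟩ := hmem e he q hq
  obtain ⟨hr1, hr2, hr3, hr4, hr5, hr6⟩ := hmem e' he' r hr
  have hpx := cl.px hV hi hq1 hr1 hn hT hK
  have hz : zs g ≤ z g i := cl.zs_le.trans (cl.cut i (cl.lt i hi))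
  obtain ⟨-, -, -, ha, hb⟩ := clean_cofac hV hz (hVq hq1) (hVq hr1) hpx.cl
  have hsw := rcof_swap hV hz (hVq hq1) (hVq hr1) hpx.cl r q
  have hP := hpx.pairX hV
  rw [hq4, hr4] at hP
  refine ⟨?_, _, _, _, _, _, hP, ?_⟩
  · obtain ⟨F, G, hF, hG'⟩ := cl.un i hi q r n hT
    rw [← hq6, ← hr6]
    exact (stage_max (cl.lt i hi) (cl.taj i hi q r n hT) hF hG').symm
  have hGB := hG i hi (GpU U x e) (GpU U x e') ((GpU_sub U x e).trans hUV)
    ((GpU_sub U x e').trans hUV) q hq r hr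
    (fun q' hq' => by
      obtain ⟨-, h2, h3, -⟩ := hmem e he q' hq'
      exact ⟨h2.trans hq2.symm, h3.trans hq3.symm⟩)
    (fun r' hr' => by
      obtain ⟨-, h2, h3, -⟩ := hmem e' he' r' hr'
      exact ⟨h2.trans hr2.symm, h3.trans hr3.symm⟩) n hn hT hK
  refine hGB.trans (le_of_eq ?_)
  have hb' : rcof (z g i) (N g) (kc g r) r q ≠ 0 := by
    rw [hsw]
    exact hb.ne'
  have hxz := cl.cut i (cl.lt i hi)
  rw [wf_lkx c1 c lam ha.ne', wf_lkx c1 c lam hb', u2x_eq (q := q), u2x_eq (q := r), hsw,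
    ← omx_mul_rsx (g := g) x q (rcof (z g i) (N g) (kc g q) q r),
    ← omx_mul_rsx (g := g) x r (rcof (z g i) (N g) (kc g q) r q), hq5, hr5, hq6, hr6, hq4, hr4,
    ← wrd_Wt (q := r) hxz, ← wrd_Wt (q := q) hxz, hq4, hr4]
  unfold gm2 bdX
  have m1 : min (1 / 2 : ℝ) (1 - 1 / 2) - 2 / 5 = 1 / 10 := by norm_num
  have m2 : min (9 / 20 : ℝ) (1 - 9 / 20) - 2 / 5 = 1 / 20 := by norm_num
  have m3 : (1 : ℝ) - 1 / 2 = 1 / 2 := by norm_num
  have m4 : (1 : ℝ) - 9 / 20 = 11 / 20 := by norm_num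
  rw [m1, m2, m3, m4]
  push_cast
  ring

end Vale.P028.SK
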