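import Vale.Agent.P028.MathlibUsed
import Vale.Agent.P028.BT1

/-!
# Harm of the primes `> z` dividing the cofactors

`hz A z n = ∏_{p ∣ n, p > z} (1 - 1/p)^{-A}`.  Over all pairs with `D ≤ s` the sum of
`f q h r (hz A z u * hz A z v - 1)` is `≤ C z^{-c} s^{2(1-θ)} (F H)^θ`.
-/

namespace Vale.P028.H359

open Finset Vale.P028

/-- The harm of the primes `> z` of `n`. -/
noncomputable def hz (A z n : ℕ) : ℝ := ∏ p ∈ n.primeFactors with z < p, ((1 - 1 / (p : ℝ))⁻¹) ^ A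

theorem one_le_prod_real {ι : Type*} (P : Finset ι) (x : ι → ℝ) (h : ∀ p ∈ P, 1 ≤ x p) :
    1 ≤ ∏ p ∈ P, x p :=
  Finset.prod_induction _ (fun x : ℝ => 1 ≤ x) (fun a b ha hb => by nlinarith) le_rfl h

theorem hz_ge_one (A z n : ℕ) : 1 ≤ hz A z n := by
  unfold hz
  refine one_le_prod_real _ _ ?_
  intro p hp
  have hp' := Nat.prime_of_mem_primeFactors (mem_filter.1 hp).1
  obtain ⟨h1, h2⟩ := bt_one_sub_inv hp'
  exact one_le_pow₀ ((one_le_inv₀ h1).2 h2)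

/-- tail of a product with larger weights -/
theorem prod_tail {P : Finset ℕ} {x y : ℕ → ℝ} {ε : ℝ} (hε0 : 0 < ε) (hε1 : ε ≤ 1)
    (hx : ∀ p ∈ P, 0 ≤ x p) (hxy : ∀ p ∈ P, x p ≤ ε * y p) :
    ∏ p ∈ P, (1 + x p) - 1 ≤ ε * (∏ p ∈ P, (1 + y p) - 1) ∧ 1 ≤ ∏ p ∈ P, (1 + x p) ∧
      1 ≤ ∏ p ∈ P, (1 + y p) := by
  classical
  induction P using Finset.induction_on with
  | empty => simp
  | insert p P hp ih =>
    obtain ⟨h1, h2, h3⟩ := ih (fun q hq => hx q (mem_insert_of_mem hq))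
      (fun q hq => hxy q (mem_insert_of_mem hq))
    rw [prod_insert hp, prod_insert hp]
    have hx0 := hx p (mem_insert_self p P)
    have hxy0 := hxy p (mem_insert_self p P)
    set X := ∏ q ∈ P, (1 + x q) with hX
    set Y := ∏ q ∈ P, (1 + y q) with hY
    have hy0 : 0 ≤ y p := by
      by_contra h
      rw [not_le] at h
      have : ε * y p < 0 := mul_neg_of_pos_of_neg hε0 h
      linarith
    have hxy1 : x p ≤ y p := by nlinarith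
    refine ⟨?_, by nlinarith, by nlinarith⟩
    have e1 : (1 + x p) * X - 1 = x p + (X - 1) + x p * (X - 1) := by ring
    have e2 : ε * ((1 + y p) * Y - 1) = ε * y p + ε * (Y - 1) + y p * (ε * (Y - 1)) := by ring
    rw [e1, e2]
    have h4 : x p * (X - 1) ≤ y p * (ε * (Y - 1)) :=
      mul_le_mul hxy1 h1 (by linarith) hy0
    linarith

theorem one_add_pow_le (A : ℕ) {t : ℝ} (h0 : 0 ≤ t) (h1 : t ≤ 1) :
    (1 + t) ^ A ≤ 1 + t * (2 ^ A - 1) := by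
  induction A with
  | zero => simp
  | succ A ih =>
    have h2 : (1 : ℝ) ≤ 2 ^ A := one_le_pow₀ (by norm_num)
    calc (1 + t) ^ (A + 1) = (1 + t) * (1 + t) ^ A := by ring
      _ ≤ (1 + t) * (1 + t * (2 ^ A - 1)) := mul_le_mul_of_nonneg_left ih (by linarith)
      _ ≤ 1 + t * (2 ^ (A + 1) - 1) := by
          rw [pow_succ]
          nlinarith [mul_nonneg h0 (sub_nonneg.2 h2), mul_nonneg (mul_nonneg h0 (sub_nonneg.2 h1))
            (sub_nonneg.2 h2)]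

theorem x_le (A : ℕ) {p : ℕ} (hp : p.Prime) :
    0 ≤ ((1 - 1 / (p : ℝ))⁻¹) ^ A - 1 ∧ ((1 - 1 / (p : ℝ))⁻¹) ^ A - 1 ≤ 2 ^ (A + 1) / p := by
  obtain ⟨h1, h2⟩ := bt_one_sub_inv hp
  have hp2 : (2 : ℝ) ≤ p := by exact_mod_cast hp.two_le
  have hp0 : (0 : ℝ) < p := by linarith
  have h3 : 1 ≤ (1 - 1 / (p : ℝ))⁻¹ := (one_le_inv₀ h1).2 h2
  refine ⟨sub_nonneg.2 (one_le_pow₀ h3), ?_⟩
  have h4 : (1 - 1 / (p : ℝ))⁻¹ ≤ 1 + 2 / p := by
    rw [inv_le_iff_one_le_mul₀ h1]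
    have e : (1 + 2 / (p : ℝ)) * (1 - 1 / p) = 1 + (1 / p) * (1 - 2 / p) := by
      field_simp
      ring
    rw [e]
    have : 0 ≤ (1 / (p : ℝ)) * (1 - 2 / p) := by
      refine mul_nonneg (by positivity) ?_
      rw [sub_nonneg, div_le_one hp0]
      exact hp2
    linarith
  have h5 : (2 : ℝ) / p ≤ 1 := by rwa [div_le_one hp0]
  have h6 := one_add_pow_le A (show (0 : ℝ) ≤ 2 / p by positivity) h5
  have h7 : ((1 - 1 / (p : ℝ))⁻¹) ^ A ≤ (1 + 2 / p) ^ A :=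
    pow_le_pow_left₀ (by linarith) h4 A
  have h8 : 2 / (p : ℝ) * (2 ^ A - 1) ≤ 2 ^ (A + 1) / p := by
    rw [pow_succ, div_mul_eq_mul_div]
    refine div_le_div_of_nonneg_right ?_ hp0.le
    linarith
  linarith

/-- the constant of the weighted inequality -/
theorem const_le {l : ℝ} (hl : 0 < l) (A : ℕ) : ∃ K > 0, ∀ P : Finset ℕ, (∀ p ∈ P, p.Prime) →
    ∏ p ∈ P, (1 + (p : ℝ) ^ (l / 2) * (((1 - 1 / (p : ℝ))⁻¹) ^ A - 1) * (p : ℝ) ^ (-l)) ≤ K := by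
  have hs : Summable (fun n : ℕ => 1 / (n : ℝ) ^ (1 + l / 2)) :=
    Real.summable_one_div_nat_rpow.2 (by linarith)
  refine ⟨Real.exp (2 ^ (A + 1) * ∑' n : ℕ, 1 / (n : ℝ) ^ (1 + l / 2)), Real.exp_pos _, ?_⟩
  intro P hP
  have hterm : ∀ p ∈ P, 1 + (p : ℝ) ^ (l / 2) * (((1 - 1 / (p : ℝ))⁻¹) ^ A - 1) * (p : ℝ) ^ (-l) ≤
      Real.exp (2 ^ (A + 1) * (1 / (p : ℝ) ^ (1 + l / 2))) := by
    intro p hp
    have hp0 : (0 : ℝ) < p := by exact_mod_cast (hP p hp).pos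
    obtain ⟨h1, h2⟩ := x_le A (hP p hp)
    have h3 : (p : ℝ) ^ (l / 2) * (((1 - 1 / (p : ℝ))⁻¹) ^ A - 1) * (p : ℝ) ^ (-l) ≤
        2 ^ (A + 1) * (1 / (p : ℝ) ^ (1 + l / 2)) := by
      calc (p : ℝ) ^ (l / 2) * (((1 - 1 / (p : ℝ))⁻¹) ^ A - 1) * (p : ℝ) ^ (-l)
          ≤ (p : ℝ) ^ (l / 2) * (2 ^ (A + 1) / p) * (p : ℝ) ^ (-l) := by gcongr
        _ = 2 ^ (A + 1) * ((p : ℝ) ^ (l / 2) * (p : ℝ) ^ (-l) / (p : ℝ) ^ (1 : ℝ)) := by
            rw [Real.rpow_one]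
            ring
        _ = 2 ^ (A + 1) * (1 / (p : ℝ) ^ (1 + l / 2)) := by
            rw [← Real.rpow_add hp0, ← Real.rpow_sub hp0, one_div, ← Real.rpow_neg hp0.le]
            congr 2
            ring
    have h4 := Real.add_one_le_exp (2 ^ (A + 1) * (1 / (p : ℝ) ^ (1 + l / 2)))
    linarith
  calc _ ≤ ∏ p ∈ P, Real.exp (2 ^ (A + 1) * (1 / (p : ℝ) ^ (1 + l / 2))) := by
        refine prod_le_prod (fun p hp => ?_) hterm
        have h1 := (x_le A (hP p hp)).1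
        positivity
    _ = Real.exp (2 ^ (A + 1) * ∑ p ∈ P, 1 / (p : ℝ) ^ (1 + l / 2)) := by
        rw [← Real.exp_sum, mul_sum]
    _ ≤ _ := by
        apply Real.exp_le_exp.2
        refine mul_le_mul_of_nonneg_left ?_ (by positivity)
        exact hs.sum_le_tsum _ (fun n _ => by positivity)

open Classical in
/-- **Outer harm**: the primes `> z` dividing the cofactors cost `1 + O(z^{-c})` in the mean, over
all pairs with `D ≤ s`. -/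
theorem harm_out {θ : ℝ} (hθ : 1 / 2 < θ) (hθ1 : θ < 1) (A : ℕ) :
    ∃ C > 0, ∀ (z : ℕ), 1 ≤ z → ∀ (ψ₁ ψ₂ f h : ℕ → ℝ) (s₁ s₂ : ℝ) (N : ℕ),
      0 < s₁ → 0 < s₂ → (∀ q, 0 ≤ ψ₁ q) → (∀ q, 0 ≤ ψ₂ q) →
      (∀ q, 0 ≤ f q ∧ f q ≤ ψ₁ q * (q.totient / q)) →
      (∀ r, 0 ≤ h r ∧ h r ≤ ψ₂ r * (r.totient / r)) →
      ∑ q ∈ Icc 1 N, ∑ r ∈ Icc 1 N,
        (if (cofac r q : ℝ) * ψ₁ q ≤ s₁ ∧ (cofac q r : ℝ) * ψ₂ r ≤ s₂ then
          f q * h r * (hz A z (cofac q r) * hz A z (cofac r q) - 1) else 0) ≤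
        C * (z : ℝ) ^ (-((1 - θ) / 2)) * (s₁ * s₂) ^ (1 - θ) *
          ((∑ q ∈ Icc 1 N, f q) * ∑ r ∈ Icc 1 N, h r) ^ θ := by
  obtain ⟨C, hC, hT⟩ := T1_weighted hθ hθ1
  have hl : 0 < 1 - θ := by linarith
  obtain ⟨K, hK, hKP⟩ := const_le hl A
  refine ⟨C * K ^ 2, by positivity, ?_⟩
  intro z hz1 ψ₁ ψ₂ f h s₁ s₂ N hs₁ hs₂ hψ₁ hψ₂ hf hh
  have hz0 : (0 : ℝ) < z := by exact_mod_cast hz1
  have hz1' : (1 : ℝ) ≤ z := by exact_mod_cast hz1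
  set P : Finset ℕ := (Icc 1 N).filter (fun p => p.Prime ∧ z < p) with hP
  have hPp : ∀ p ∈ P, p.Prime := fun p hp => (mem_filter.1 hp).2.1
  have hPz : ∀ p ∈ P, z < p := fun p hp => (mem_filter.1 hp).2.2
  set x : ℕ → ℝ := fun p => ((1 - 1 / (p : ℝ))⁻¹) ^ A - 1 with hx
  set y : ℕ → ℝ := fun p => (p : ℝ) ^ ((1 - θ) / 2) * x p with hy
  have hx0 : ∀ p ∈ P, 0 ≤ x p := fun p hp => (x_le A (hPp p hp)).1
  have hy0 : ∀ p ∈ P, 0 ≤ y p := fun p hp => mul_nonneg (by positivity) (hx0 p hp)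
  set ε : ℝ := (z : ℝ) ^ (-((1 - θ) / 2)) with hε
  have hε0 : 0 < ε := by positivity
  have hε1 : ε ≤ 1 := Real.rpow_le_one_of_one_le_of_nonpos hz1' (by linarith)
  have hxy : ∀ p ∈ P, x p ≤ ε * y p := by
    intro p hp
    have hp0 : (0 : ℝ) < p := by exact_mod_cast (hPp p hp).pos
    have hzp : (z : ℝ) ≤ p := by exact_mod_cast (hPz p hp).le
    have h1 : (1 : ℝ) ≤ ε * (p : ℝ) ^ ((1 - θ) / 2) := by
      rw [hε, Real.rpow_neg hz0.le, inv_mul_eq_div, one_le_div (by positivity)]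
      exact Real.rpow_le_rpow hz0.le hzp (by linarith)
    calc x p = 1 * x p := (one_mul _).symm
      _ ≤ (ε * (p : ℝ) ^ ((1 - θ) / 2)) * x p := mul_le_mul_of_nonneg_right h1 (hx0 p hp)
      _ = _ := by
          simp only [hy]
          ring
  have hhz : ∀ n : ℕ, 0 < n → n ≤ N → hz A z n = ∏ p ∈ P with p ∣ n, (1 + x p) := by
    intro n hn hnN
    unfold hz
    have e : n.primeFactors.filter (fun p => z < p) = P.filter (fun p => p ∣ n) := by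
      ext p
      rw [mem_filter, mem_filter, Nat.mem_primeFactors, hP, mem_filter, mem_Icc]
      constructor
      · rintro ⟨⟨h1, h2, _⟩, h3⟩
        exact ⟨⟨⟨h1.one_lt.le, (Nat.le_of_dvd hn h2).trans hnN⟩, h1, h3⟩, h2⟩
      · rintro ⟨⟨_, h1, h3⟩, h2⟩
        exact ⟨⟨h1, h2, hn.ne'⟩, h3⟩
    rw [e]
    refine prod_congr rfl fun p _ => ?_
    simp only [hx]
    ring
  have hterm : ∀ q ∈ Icc 1 N, ∀ r ∈ Icc 1 N,
      hz A z (cofac q r) * hz A z (cofac r q) - 1 ≤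
        ε * ((∏ p ∈ P with p ∣ cofac q r, (1 + y p)) * ∏ p ∈ P with p ∣ cofac r q, (1 + y p)) := by
    intro q hq r hr
    have hq0 : 0 < q := (mem_Icc.1 hq).1
    have hr0 : 0 < r := (mem_Icc.1 hr).1
    rw [hhz _ (cofac_pos r hq0) ((cofac_le r hq0).trans (mem_Icc.1 hq).2),
      hhz _ (cofac_pos q hr0) ((cofac_le q hr0).trans (mem_Icc.1 hr).2)]
    obtain ⟨a1, a2, a3⟩ := prod_tail (P := P.filter (fun p => p ∣ cofac q r)) hε0 hε1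
      (fun p hp => hx0 p (mem_filter.1 hp).1) (fun p hp => hxy p (mem_filter.1 hp).1)
    obtain ⟨b1, b2, b3⟩ := prod_tail (P := P.filter (fun p => p ∣ cofac r q)) hε0 hε1
      (fun p hp => hx0 p (mem_filter.1 hp).1) (fun p hp => hxy p (mem_filter.1 hp).1)
    set X₁ := ∏ p ∈ P with p ∣ cofac q r, (1 + x p)
    set X₂ := ∏ p ∈ P with p ∣ cofac r q, (1 + x p)
    set Y₁ := ∏ p ∈ P with p ∣ cofac q r, (1 + y p)
    set Y₂ := ∏ p ∈ P with p ∣ cofac r q, (1 + y p)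
    have e1 : X₁ * X₂ - 1 = (X₁ - 1) + (X₂ - 1) + (X₁ - 1) * (X₂ - 1) := by ring
    have h4 : (X₁ - 1) * (X₂ - 1) ≤ (ε * (Y₁ - 1)) * (Y₂ - 1) := by
      refine mul_le_mul a1 ?_ (by linarith) (mul_nonneg hε0.le (by linarith))
      calc X₂ - 1 ≤ ε * (Y₂ - 1) := b1
        _ ≤ 1 * (Y₂ - 1) := mul_le_mul_of_nonneg_right hε1 (by linarith)
        _ = Y₂ - 1 := one_mul _
    have e2 : ε * (Y₁ * Y₂) = ε * (Y₁ - 1) + ε * (Y₂ - 1) + (ε * (Y₁ - 1)) * (Y₂ - 1) + ε := by ring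
    rw [e1, e2]
    linarith
  have hmain := hT P hPp y hy0 ψ₁ ψ₂ f h s₁ s₂ N hs₁ hs₂ hψ₁ hψ₂ hf hh
  have hconst := hKP P hPp
  have hconst' : ∏ p ∈ P, (1 + y p * (p : ℝ) ^ (-(1 - θ))) ≤ K := by
    refine (le_of_eq ?_).trans hconst
    rfl
  have hc0 : 0 ≤ ∏ p ∈ P, (1 + y p * (p : ℝ) ^ (-(1 - θ))) := by
    refine prod_nonneg fun p hp => ?_
    have := hy0 p hp
    positivity
  have hFH : 0 ≤ ((∑ q ∈ Icc 1 N, f q) * ∑ r ∈ Icc 1 N, h r) ^ θ :=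
    Real.rpow_nonneg (mul_nonneg (sum_nonneg fun q _ => (hf q).1) (sum_nonneg fun q _ => (hh q).1)) _
  calc ∑ q ∈ Icc 1 N, ∑ r ∈ Icc 1 N,
        (if (cofac r q : ℝ) * ψ₁ q ≤ s₁ ∧ (cofac q r : ℝ) * ψ₂ r ≤ s₂ then
          f q * h r * (hz A z (cofac q r) * hz A z (cofac r q) - 1) else 0)
      ≤ ∑ q ∈ Icc 1 N, ∑ r ∈ Icc 1 N, ε *
        (if (cofac r q : ℝ) * ψ₁ q ≤ s₁ ∧ (cofac q r : ℝ) * ψ₂ r ≤ s₂ then
          f q * h r * ((∏ p ∈ P with p ∣ cofac q r, (1 + y p)) *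
            ∏ p ∈ P with p ∣ cofac r q, (1 + y p)) else 0) := by
        refine sum_le_sum fun q hq => sum_le_sum fun r hr => ?_
        split_ifs
        · calc _ ≤ f q * h r * (ε * ((∏ p ∈ P with p ∣ cofac q r, (1 + y p)) *
                ∏ p ∈ P with p ∣ cofac r q, (1 + y p))) :=
              mul_le_mul_of_nonneg_left (hterm q hq r hr) (mul_nonneg (hf q).1 (hh r).1)
            _ = _ := by ring
        · simp
    _ = ε * ∑ q ∈ Icc 1 N, ∑ r ∈ Icc 1 N,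
        (if (cofac r q : ℝ) * ψ₁ q ≤ s₁ ∧ (cofac q r : ℝ) * ψ₂ r ≤ s₂ then
          f q * h r * ((∏ p ∈ P with p ∣ cofac q r, (1 + y p)) *
            ∏ p ∈ P with p ∣ cofac r q, (1 + y p)) else 0) := by
        simp only [mul_sum]
    _ ≤ ε * (C * (s₁ * s₂) ^ (1 - θ) * ((∑ q ∈ Icc 1 N, f q) * ∑ r ∈ Icc 1 N, h r) ^ θ *
          (∏ p ∈ P, (1 + y p * (p : ℝ) ^ (-(1 - θ)))) ^ 2) :=
        mul_le_mul_of_nonneg_left hmain hε0.le
    _ ≤ ε * (C * (s₁ * s₂) ^ (1 - θ) * ((∑ q ∈ Icc 1 N, f q) * ∑ r ∈ Icc 1 N, h r) ^ θ *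
          K ^ 2) := by
        refine mul_le_mul_of_nonneg_left ?_ hε0.le
        refine mul_le_mul_of_nonneg_left (pow_le_pow_left₀ hc0 hconst' 2) (by positivity)
    _ = _ := by ring

end Vale.P028.H359
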